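import Vale.Agent.P141.H401.DvS

/-!
# P141, line (A), top: the cut of `u` at the dense fibres

The same set for `u` (`DuS`, majorant `U.1`).  The part `hi` of `u` is not split (`HSt00`);
everything else is applied to the class data with `lo DuS u`, `lo DvS v`, again class data, the
kernel is built with `lo DuS u`.

* `DuS`, `FibU`, `fib_DuS`, `col_DuS`;
* `cosA_cut5` : the cost with the cut of `u`, `C`, `A` and `b`;
* `CStUV`, `MkFU` : prices and makers for the data `(lo DuS u, lo DvS v)`;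
* `ce1q_of_cstUV`, `ce1q_of_MkFU` : the class statement.
-/

namespace Vale.Agent.P141.H401

open Finset Matrix
open Vale.Agent.P141.PL (Pt iv hs ix cx mem_iv)
open Vale.Agent.P141.PL.H315 (Tri avg)
open Vale.Agent.P141.H48 (US ES BSl sst cst)
open Vale.Agent.P141.H579 (cosA)
open Vale.Agent.P141.H352 (In p)
open Vale.Agent.P141.H677
open Vale.Agent.P141.H677.Sk (lam1)
open Vale.Agent.P141.H305 (ClsM kapM CE1q cmp price_mono)

noncomputable section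

open scoped Classical

set_option linter.unusedSectionVars false

set_option linter.unusedSimpArgs false

/-- **The dense fibres of `u`**, level `lam1 = t ^ (-8) √s r ^ 8`. -/
def DuS : Sel := fun _ι _ _ p K _x s r U u z y => H444.FD.Dv p.Lm U.1 K (lam1 p s r) u z y

theorem DuS_CD (ι : Type) [Fintype ι] [DecidableEq ι] (p : Num) (CD : ℝ) (K : ℕ) (x : Pt)
    (s r : ℝ) (U : Tri) (u : ℤ → ℤ → ι → ℝ) :
    DuS ι { p with CD := CD } K x s r U u = DuS ι p K x s r U u := rfl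

variable {ι : Type} [Fintype ι] [DecidableEq ι]

/-- the fibres of `u` on the alive squares are at most `lam1` -/
def FibU (p : Num) (K : ℕ) (x : Pt) (s r : ℝ) (U : Tri) (u : ℤ → ℤ → ι → ℝ) : Prop :=
  ∀ k ≤ K, ∀ x1 ∈ iv K (ix K x.1), ∀ x2 ∈ iv K (ix K x.2.1), ¬ sst p.Lm U.1 K k x1 x2 →
    ∑ y ∈ iv k (ix k x2), u x1 y ⬝ᵥ u x1 y ≤ lam1 p s r * 2 ^ k

/-- **The fibres of `u` off the set.** -/
theorem fib_DuS {p : Num} {K : ℕ} {x : Pt} {s r P κ : ℝ} {U : Tri} {g : ℤ → ℤ → ℝ}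
    {u v : ℤ → ℤ → ι → ℝ} (ht : 0 < p.t) (ht1 : p.t ≤ 1) (hd0 : 0 ≤ p.d) (hd : p.d ≤ 8)
    (hs : 0 < s) (hr : 1 ≤ r) (h : ClsM K x s r P κ U g u v) :
    FibU p K x s r U (lo (DuS ι p K x s r U u) u) := by
  intro k hk x1 hx1 x2 hx2 hst
  have hL : 0 ≤ p.Lm := by linarith [Num.Lm_ge ht ht1 hd0]
  have h1 := H444.FD.fib (K := K) (P := sst p.Lm U.1 K) (lam := lam1 p s r)
    (M := min 1 (p.Lm * s)) (f := fun z y => u z y ⬝ᵥ u z y) (H444.FD.stP_sst p.Lm U.1 K)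
    (R := ix K x.1) (S := ix K x.2.1) (fun z y => H444.FD.dot_nn _) ?_
    (lam1_ge ht ht1 hd hs hr) (lam1_pos ht hs hr).le k hk x1 hx1 x2 hx2 hst
  · refine (sum_congr rfl fun y _ => ?_).trans_le h1
    exact lo_DvS _ u x1 y
  · intro z hz y hy h0
    refine le_min ?_ ?_
    · have h2 := h.U_u z hz y hy
      have h3 := h.u_le z hz y hy
      nlinarith
    · have h2 := H444.FD.mass_sst (R := ix K x.1) (S := ix K x.2.1) (s := s) hL
        (fun z hz y hy => h.u_le z hz y hy) ?_ (Nat.zero_le K) hz hy h0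
      · have e1 : ∀ c : ℤ, iv 0 (ix 0 c) = {c} := by
          intro c
          ext w
          rw [mem_iv, mem_singleton]
          unfold PL.ix
          simp
        rw [e1, e1, sum_singleton, sum_singleton, pow_zero, mul_one] at h2
        exact h2
      · intro z hz y hy
        refine (le_of_eq ?_).trans h.U_u2
        exact H48.A2_congr' (k := K) U.1 (mem_iv.1 hz) (mem_iv.1 hy)

/-- **The columns of the set** on the alive squares, `del = 4 t ^ (-d) s / lam1`. -/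
theorem col_DuS {p : Num} {K : ℕ} {x : Pt} {s r P κ : ℝ} {U : Tri} {g : ℤ → ℤ → ℝ}
    {u v : ℤ → ℤ → ι → ℝ} (ht : 0 < p.t) (ht1 : p.t ≤ 1) (hd0 : 0 ≤ p.d)
    (hs : 0 < s) (hr : 1 ≤ r) (h : ClsM K x s r P κ U g u v) :
    ∀ j ≤ K, ∀ z ∈ iv K (ix K x.1), ∀ y ∈ iv K (ix K x.2.1), ¬ sst p.Lm U.1 K j z y →
      ∑ z' ∈ iv j (ix j z), (if DuS ι p K x s r U u z' y then (1 : ℝ) else 0) ≤
        4 * (p.Lm * s) / lam1 p s r * 2 ^ j := by
  have hL : 0 ≤ p.Lm := by linarith [Num.Lm_ge ht ht1 hd0]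
  refine H444.FD.col_sst hL hs.le (lam1_pos ht hs hr) (fun z hz y hy => h.u_le z hz y hy) ?_
  intro z hz y hy
  refine (le_of_eq ?_).trans h.U_u2
  exact H48.A2_congr' (k := K) U.1 (mem_iv.1 hz) (mem_iv.1 hy)

/-- **The data with `lo` in the place of `u` are again class data.** -/
theorem ClsM_loU {K : ℕ} {x : Pt} {s r P κ : ℝ} {U : Tri} {g : ℤ → ℤ → ℝ} {u v : ℤ → ℤ → ι → ℝ}
    (D : ℤ → ℤ → Prop) (h : ClsM K x s r P κ U g u v) : ClsM K x s r P κ U g (lo D u) v where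
  U_g := h.U_g
  g_le := h.g_le
  U_u := h.U_u
  U_v := h.U_v
  u_le := fun z hz y hy => (lo_self D u z y).trans (h.u_le z hz y hy)
  v_le := h.v_le
  U_u2 := h.U_u2
  U_v2 := h.U_v2
  U_g2 := h.U_g2
  g_row := h.g_row
  u_col := fun y hy => (avg_mono' fun z _ => lo_self D u z y).trans (h.u_col y hy)
  u_row := fun z hz => (avg_mono' fun y _ => lo_self D u z y).trans (h.u_row z hz)
  u_pot := fun z hz w => (avg_mono' fun y _ => lo_dot_sq D u z y w).trans (h.u_pot z hz w)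
  v_pot := h.v_pot
  act := fun z hz => (h.act z hz).imp id fun h1 => ⟨fun y => by
    unfold lo
    split_ifs
    · rfl
    · exact h1.1 y, h1.2⟩
  r_le := h.r_le

theorem mb_splitD (p : Num) (U : Tri) (K : ℕ) (D : ℤ → ℤ → Prop) (u : ℤ → ℤ → ι → ℝ)
    (F3 : ℕ → Pt → ℝ) (x0 : ℤ) (k : ℕ) (x y : ℤ) :
    mb p U K u F3 x0 k x y = mb p U K (lo D u) F3 x0 k x y + mb p U K (hi D u) F3 x0 k x y := by
  show kF p.Lm U.1 K F3 k (x0, x, y) • u x y = kF p.Lm U.1 K F3 k (x0, x, y) • lo D u x y +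
    kF p.Lm U.1 K F3 k (x0, x, y) • hi D u x y
  rw [← smul_add, lo_add_hi]

/-! ### The cost -/

variable {o : ℤ} {Al : ℕ → Pt → Prop} {K : ℕ} {x : Pt} {g : ℤ × ℤ → ℝ} {u v : ℤ → ℤ → ι → ℝ}
  {F1 F2 F3 : ℕ → Pt → ℝ} {A A1 A2 : ℤ → ℕ → ℤ → ℤ → ℝ}
  {b b1' b2 b11 b12 b13 C C1 C2 : ℤ → ℕ → ℤ → ℤ → ι → ℝ}

/-- **Five cuts**: `b = b1' + b2`, `C = C1 + C2`, `A = A1 + A2`, `b1' = b11 + b12 + b13`; the kernel
is built with any `w`. -/
theorem cosA_cut5 (w : ℤ → ℤ → ι → ℝ) (ho : o = 1 ∨ o = -1) {l : ℝ} (hl : 0 < l)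
    (h : AgrN o Al K x g u v F1 F2 F3 A b C)
    (hB : ∀ x0 k x y, b x0 k x y = b1' x0 k x y + b2 x0 k x y)
    (hC : ∀ x0 k z x, C x0 k z x = C1 x0 k z x + C2 x0 k z x)
    (hA : ∀ x0 k z y, A x0 k z y = A1 x0 k z y + A2 x0 k z y)
    (hb : ∀ x0 k x y, b1' x0 k x y = b11 x0 k x y + (b12 x0 k x y + b13 x0 k x y)) :
    ∃ sg : ℕ → Pt → ℝ, (∀ k m, |sg k m| ≤ 1) ∧
    cosA Al o K x (fun y => g y.2 * (u y.1 y.2.1 ⬝ᵥ v y.1 y.2.2)) (fun k _ => F1 k)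
        (fun k _ => F2 k) (fun k _ => F3 k) ≤
      NS o Al K x (fun x0 k m => |nf3 (A x0 k) (b2 x0 k) (C x0 k) k m|) +
      (NS o Al K x (fun x0 k m => |nf3 (A x0 k) (b1' x0 k) (C2 x0 k) k m|) +
      (NS o Al K x (fun x0 k m => |nf3 (A2 x0 k) (b1' x0 k) (C1 x0 k) k m|) +
      (NS o Al K x (fun x0 k m => |nf3 (A1 x0 k) (b12 x0 k) (C1 x0 k) k m|) +
      NS o Al K x (fun x0 k m => |nf3 (A1 x0 k) (b13 x0 k) (C1 x0 k) k m|)))) +
      (NI ι l o Al K x w A1 b11 C1 sg + NZ ι l o Al K x w A1 b11 C1 sg +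
        NF ι l o Al K x w A1 b11 C1 sg) := by
  refine ⟨sgN o g u v F1 F2 F3, fun k m => abs_sgN_le .., ?_⟩
  set sg : ℕ → Pt → ℝ := sgN o g u v F1 F2 F3 with hsg
  have hs1 : ∀ k m, |sg k m| ≤ 1 := fun k m => abs_sgN_le ..
  rw [cosA_fam ho h]
  have eA : ∀ x0 k, A x0 k = fun z y => A1 x0 k z y + A2 x0 k z y := fun x0 k => by
    funext z y
    exact hA x0 k z y
  have eB : ∀ x0 k, b x0 k = fun x y => b1' x0 k x y + b2 x0 k x y := fun x0 k => by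
    funext z y
    exact hB x0 k z y
  have eb : ∀ x0 k, b1' x0 k = fun x y => b11 x0 k x y + (b12 x0 k x y + b13 x0 k x y) :=
    fun x0 k => by
    funext z y
    exact hb x0 k z y
  have eC : ∀ x0 k, C x0 k = fun z x => C1 x0 k z x + C2 x0 k z x := fun x0 k => by
    funext z y
    exact hC x0 k z y
  have e1 : NS o Al K x (fun x0 k m => sg k (rv m) *
      (hs k x0 * nf3 (A x0 k) (b x0 k) (C x0 k) k m)) =
      NS o Al K x (fun x0 k m => sg k (rv m) * (hs k x0 *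
        nf3 (A x0 k) (b2 x0 k) (C x0 k) k m)) +
      (NS o Al K x (fun x0 k m => sg k (rv m) * (hs k x0 *
        nf3 (A x0 k) (b1' x0 k) (C2 x0 k) k m)) +
      (NS o Al K x (fun x0 k m => sg k (rv m) * (hs k x0 *
        nf3 (A2 x0 k) (b1' x0 k) (C1 x0 k) k m)) +
      (NS o Al K x (fun x0 k m => sg k (rv m) * (hs k x0 *
        nf3 (A1 x0 k) (b12 x0 k) (C1 x0 k) k m)) +
      NS o Al K x (fun x0 k m => sg k (rv m) * (hs k x0 *
        nf3 (A1 x0 k) (b13 x0 k) (C1 x0 k) k m))))) +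
      NS o Al K x (fun x0 k m => sg k (rv m) * (hs k x0 *
        nf3 (A1 x0 k) (b11 x0 k) (C1 x0 k) k m)) := by
    rw [← NS_add, ← NS_add, ← NS_add, ← NS_add, ← NS_add]
    refine NS_congr fun x0 k hk m _ => ?_
    have eb0 : nf3 (A x0 k) (b x0 k) (C x0 k) k m =
        nf3 (A x0 k) (b1' x0 k) (C x0 k) k m + nf3 (A x0 k) (b2 x0 k) (C x0 k) k m := by
      conv_lhs => rw [eB x0 k]
      exact nf3_addB ..
    have e0 : nf3 (A x0 k) (b1' x0 k) (C x0 k) k m =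
        nf3 (A x0 k) (b1' x0 k) (C1 x0 k) k m + nf3 (A x0 k) (b1' x0 k) (C2 x0 k) k m := by
      conv_lhs => rw [eC x0 k]
      exact nf3_addC ..
    have e2 : nf3 (A x0 k) (b1' x0 k) (C1 x0 k) k m =
        nf3 (A1 x0 k) (b1' x0 k) (C1 x0 k) k m + nf3 (A2 x0 k) (b1' x0 k) (C1 x0 k) k m := by
      conv_lhs => rw [eA x0 k]
      exact nf3_addA ..
    have e3 : nf3 (A1 x0 k) (b1' x0 k) (C1 x0 k) k m =
        nf3 (A1 x0 k) (b11 x0 k) (C1 x0 k) k m +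
          nf3 (A1 x0 k) (fun x y => b12 x0 k x y + b13 x0 k x y) (C1 x0 k) k m := by
      conv_lhs => rw [eb x0 k]
      exact nf3_addB ..
    have e4 : nf3 (A1 x0 k) (fun x y => b12 x0 k x y + b13 x0 k x y) (C1 x0 k) k m =
        nf3 (A1 x0 k) (b12 x0 k) (C1 x0 k) k m + nf3 (A1 x0 k) (b13 x0 k) (C1 x0 k) k m :=
      nf3_addB ..
    rw [eb0, e0, e2, e3, e4]
    ring
  rw [e1]
  exact add_le_add (add_le_add (NS_sign_le sg hs1 _) (add_le_add (NS_sign_le sg hs1 _)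
    (add_le_add (NS_sign_le sg hs1 _) (add_le_add (NS_sign_le sg hs1 _) (NS_sign_le sg hs1 _)))))
    (split_fam hl sg hs1 A1 b11 C1)

/-! ### Substitution of `u` -/

/-- **Substitution of `u`.** -/
theorem PartY.substU {Φ : StX} (Du : Sel) (H : PartY Φ) :
    PartY fun ι _ _ p n ez F1 F2 F3 o K x s r U g u v B =>
      Φ ι p n ez F1 F2 F3 o K x s r U g (lo (Du ι p K x s r U u) u) v B := by
  intro a ha ha1
  obtain ⟨es, hes, H⟩ := H a ha ha1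
  refine ⟨es, hes, fun e0 he0 he0' => ?_⟩
  obtain ⟨k8s, hk8s, H⟩ := H e0 he0 he0'
  refine ⟨k8s, hk8s, fun k8 hk8 hk8' => ?_⟩
  obtain ⟨k3s, hk3s, H⟩ := H k8 hk8 hk8'
  refine ⟨k3s, hk3s, fun k3 hk3 hk3' => ?_⟩
  obtain ⟨gam, c1, d0, del, hgam, hc1, hd0, hdel, H⟩ := H k3 hk3 hk3'
  refine ⟨gam, c1, d0, del, hgam, hc1, hd0, hdel, fun c hc hcc d hd hdd Kt e cP L hK he hcP hL => ?_⟩
  obtain ⟨CD, hCD, C, hC, H⟩ := H c hc hcc d hd hdd Kt e cP L hK he hcP hL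
  refine ⟨CD, hCD, C, hC, ?_⟩
  intro t ht ht1 n ez F1 F2 F3 h1 h3 h2 o ho K hKn x ι _ _ s r U g u v hs hr hcls
  exact H t ht ht1 n ez F1 F2 F3 h1 h3 h2 o ho K hKn x ι s r U g _ v hs hr (ClsM_loU _ hcls)

theorem PartX.substU {Φ : StX} (Du : Sel) (H : PartX Φ) :
    PartX fun ι _ _ p n ez F1 F2 F3 o K x s r U g u v B =>
      Φ ι p n ez F1 F2 F3 o K x s r U g (lo (Du ι p K x s r U u) u) v B := by
  intro a ha ha1
  obtain ⟨es, hes, H⟩ := H a ha ha1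
  refine ⟨es, hes, fun e0 he0 he0' => ?_⟩
  obtain ⟨k8s, hk8s, H⟩ := H e0 he0 he0'
  refine ⟨k8s, hk8s, fun k8 hk8 hk8' => ?_⟩
  obtain ⟨k3s, hk3s, H⟩ := H k8 hk8 hk8'
  refine ⟨k3s, hk3s, fun k3 hk3 hk3' => ?_⟩
  obtain ⟨gam, c1, d0, del, hgam, hc1, hd0, hdel, H⟩ := H k3 hk3 hk3'
  refine ⟨gam, c1, d0, del, hgam, hc1, hd0, hdel,
    fun c hc hcc d hd hdd Kt e cP L hK he hcP hL CD hCD => ?_⟩
  obtain ⟨C, hC, H⟩ := H c hc hcc d hd hdd Kt e cP L hK he hcP hL CD hCD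
  refine ⟨C, hC, ?_⟩
  intro t ht ht1 n ez F1 F2 F3 h1 h3 h2 o ho K hKn x ι _ _ s r U g u v hs hr hcls
  exact H t ht ht1 n ez F1 F2 F3 h1 h3 h2 o ho K hKn x ι s r U g _ v hs hr (ClsM_loU _ hcls)

/-! ### The leaves -/

/-- **Price of the part of `u` on the set.** -/
def HSt00 (Du : Sel) : Prop :=
  PartQ fun ι _ _ p _n _ez F1 F2 F3 o K x s r U g u v _Q1 _Q2 _Q3 B =>
    NS o (p.al U K) K x (fun x0 k m =>
      |nf3 (mA p U K g F1 x0 k) (mb p U K (hi (Du ι p K x s r U u) u) F3 x0 k)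
        (mC p U K v F2 x0 k) k m|) ≤ B

/-- price of the part of `v` on the set, data with `lo` in the place of `u` -/
def HSt0U (Du Dv : Sel) : Prop :=
  PartQ fun ι _ _ p _n _ez F1 F2 F3 o K x s r U g u v _Q1 _Q2 _Q3 B =>
    NS o (p.al U K) K x (fun x0 k m =>
      |nf3 (mA p U K g F1 x0 k) (mb p U K (lo (Du ι p K x s r U u) u) F3 x0 k)
        (mC p U K (hi (Dv ι p K x s r U v) v) F2 x0 k) k m|) ≤ B

theorem HSt0.toU (Du Dv : Sel) (H : HSt0 Dv) : HSt0U Du Dv := by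
  unfold HSt0 PartQ at H
  unfold HSt0U PartQ
  exact PartY.substU Du H

/-- the sum of the prices of the unsplit parts, data with `lo` -/
def HStUV (Du Dv : Sel) : Prop :=
  PartQ fun ι _ _ p _n _ez F1 F2 F3 o K x s r U g u v Q1 _Q2 Q3 B =>
    NS o (p.al U K) K x (fun x0 k m => |nf3 (hA p s r U K g F1 Q1 x0 k)
      (mb p U K (lo (Du ι p K x s r U u) u) F3 x0 k)
      (mC p U K (lo (Dv ι p K x s r U v) v) F2 x0 k) k m|) +
    (NS o (p.al U K) K x (fun x0 k m => |nf3 (cA p s r U K g F1 Q1 x0 k)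
      (hb1 p s r U K (lo (Du ι p K x s r U u) u) F3 Q3 x0 k)
      (mC p U K (lo (Dv ι p K x s r U v) v) F2 x0 k) k m|) +
    NS o (p.al U K) K x (fun x0 k m => |nf3 (cA p s r U K g F1 Q1 x0 k)
      (hb3 p s r U K (lo (Du ι p K x s r U u) u) F3 Q3 x0 k)
      (mC p U K (lo (Dv ι p K x s r U v) v) F2 x0 k) k m|)) ≤ B

theorem HStV.toU (Du Dv : Sel) (H : HStV Dv) : HStUV Du Dv := by
  unfold HStV PartQ at H
  unfold HStUV PartQ
  exact PartY.substU Du H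

/-- **The cut families of the data with `lo`, `lo` have the property `D`.** -/
def MkStUV (Du Dv : Sel) (D : Bun) : Prop :=
  PartQ fun ι _ _ p n ez F1 F2 F3 o K x s r U g u v Q1 _Q2 Q3 _B =>
    D ι p n ez F1 F2 F3 o K x s r U g (lo (Du ι p K x s r U u) u) (lo (Dv ι p K x s r U v) v)
      (cA p s r U K g F1 Q1) (cb p s r U K (lo (Du ι p K x s r U u) u) F3 Q3)
      (mC p U K (lo (Dv ι p K x s r U v) v) F2)

theorem MkStV.toU (Du Dv : Sel) {D : Bun} (H : MkStV Dv D) : MkStUV Du Dv D := by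
  unfold MkStV PartQ at H
  unfold MkStUV PartQ
  exact PartY.substU Du H

/-- the price of a functional of the cut families of the data with `lo`, `lo` -/
def CStUV (Du Dv : Sel) (T : FunF) : Prop :=
  PartQ fun ι _ _ p _n _ez F1 F2 F3 o K x s r U g u v Q1 _Q2 Q3 B =>
    ∀ sg : ℕ → Pt → ℝ, (∀ k m, |sg k m| ≤ 1) →
      T ι (p.lam s r) o (p.al U K) K x (lo (Du ι p K x s r U u) u) (cA p s r U K g F1 Q1)
        (cb p s r U K (lo (Du ι p K x s r U u) u) F3 Q3)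
        (mC p U K (lo (Dv ι p K x s r U v) v) F2) sg ≤ B

theorem CStV.toU (Du Dv : Sel) {T : FunF} (H : CStV Dv T) : CStUV Du Dv T := by
  unfold CStV PartQ at H
  unfold CStUV PartQ
  exact PartY.substU Du H

theorem CSt.toUV (Du Dv : Sel) {T : FunF} (H : CSt T) : CStUV Du Dv T := (H.toV Dv).toU Du Dv

/-- **maker and part** -/
theorem CStUV.of_mk {Du Dv : Sel} {D : Bun} {T : FunF} (H1 : MkStUV Du Dv D) (H2 : PartF D T) :
    CStUV Du Dv T := by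
  unfold MkStUV PartQ at H1
  unfold PartF at H2
  unfold CStUV PartQ
  have H3 := PartX.substU Du (PartX.subst Dv H2)
  refine PartY.addX H1 H3 ?_
  intro ι _ _ p n ez F1 F2 F3 o K x s r U g u v B1 B2 B _ _ _ _ z1 _ k1 k2 k3 Q1 Q2 Q3 q1 q2 q3
    sg hsg
  exact (k2 _ _ _ (k1 Q1 Q2 Q3 q1 q2 q3) sg hsg).trans (by linarith)

/-- two functionals -/
theorem CStUV.add {Du Dv : Sel}
    (hDu : ∀ (ι : Type) [Fintype ι] [DecidableEq ι] (p : Num) (CD : ℝ) (K : ℕ) (x : Pt) (s r : ℝ)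
      (U : Tri) (v : ℤ → ℤ → ι → ℝ), Du ι { p with CD := CD } K x s r U v = Du ι p K x s r U v)
    (hDv : ∀ (ι : Type) [Fintype ι] [DecidableEq ι] (p : Num) (CD : ℝ) (K : ℕ) (x : Pt) (s r : ℝ)
      (U : Tri) (v : ℤ → ℤ → ι → ℝ), Dv ι { p with CD := CD } K x s r U v = Dv ι p K x s r U v)
    {T1 T2 T : FunF} (H1 : CStUV Du Dv T1) (H2 : CStUV Du Dv T2)
    (h : ∀ (ι : Type) [Fintype ι] [DecidableEq ι] (l : ℝ) (o : ℤ) (Al : ℕ → Pt → Prop) (K : ℕ)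
      (x : Pt) (u : ℤ → ℤ → ι → ℝ) (A : ℤ → ℕ → ℤ → ℤ → ℝ) (b C : ℤ → ℕ → ℤ → ℤ → ι → ℝ)
      (sg : ℕ → Pt → ℝ), T ι l o Al K x u A b C sg ≤
        T1 ι l o Al K x u A b C sg + T2 ι l o Al K x u A b C sg) : CStUV Du Dv T := by
  unfold CStUV PartQ at H1 H2 ⊢
  exact PartQ.add H1 H2
    (fun ι _ _ p CD n ez F1 F2 F3 o K x s r U g u v B h => by
      simp only [hDu, hDv] at h
      exact h)
    (fun ι _ _ p CD n ez F1 F2 F3 o K x s r U g u v B h => by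
      simp only [hDu, hDv] at h
      exact h)
    (fun ι _ _ p n ez F1 F2 F3 o K x s r U g u v B1 B2 B _ _ _ _ k1 k2 k3 Q1 Q2 Q3 q1 q2 q3 sg hsg =>
      (h ..).trans ((add_le_add (k1 Q1 Q2 Q3 q1 q2 q3 sg hsg) (k2 Q1 Q2 Q3 q1 q2 q3 sg hsg)).trans
        k3))

/-- the sum of the three functionals -/
def NSum : FunF := fun ι _ _ l o Al K x u A b C sg =>
  NI ι l o Al K x u A b C sg + NZ ι l o Al K x u A b C sg + NF ι l o Al K x u A b C sg

/-- **The class statement from the prices of the cut families, five cuts.** -/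
theorem ce1q_of_cstUV (Du Dv : Sel)
    (hDu : ∀ (ι : Type) [Fintype ι] [DecidableEq ι] (p : Num) (CD : ℝ) (K : ℕ) (x : Pt) (s r : ℝ)
      (U : Tri) (v : ℤ → ℤ → ι → ℝ), Du ι { p with CD := CD } K x s r U v = Du ι p K x s r U v)
    (hDv : ∀ (ι : Type) [Fintype ι] [DecidableEq ι] (p : Num) (CD : ℝ) (K : ℕ) (x : Pt) (s r : ℝ)
      (U : Tri) (v : ℤ → ℤ → ι → ℝ), Dv ι { p with CD := CD } K x s r U v = Dv ι p K x s r U v)
    (H00 : HSt00 Du) (H0 : HSt0U Du Dv) (HH : HStUV Du Dv) (HI : CStUV Du Dv NI)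
    (HZ : CStUV Du Dv NZ) (HF : CStUV Du Dv NF) : CE1q := by
  have HIZ : CStUV Du Dv (fun ι _ _ l o Al K x u A b C sg =>
      NI ι l o Al K x u A b C sg + NZ ι l o Al K x u A b C sg) :=
    CStUV.add hDu hDv HI HZ fun ι _ _ l o Al K x u A b C sg => le_rfl
  have HT : CStUV Du Dv NSum :=
    CStUV.add hDu hDv HIZ HF fun ι _ _ l o Al K x u A b C sg => le_rfl
  unfold HSt00 PartQ at H00
  unfold HSt0U PartQ at H0
  unfold HStUV PartQ at HH
  unfold CStUV PartQ at HT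
  have H1 := PartQ.add H00 H0 (Φ := fun ι _ _ p n ez F1 F2 F3 o K x s r U g u v B =>
      ∀ Q1 Q2 Q3 : ℕ → Pt → Prop, BSl n p.e p.cP F1 Q1 → BSl n ez p.cP F2 Q2 →
      BSl n p.e p.cP F3 Q3 →
      NS o (p.al U K) K x (fun x0 k m =>
        |nf3 (mA p U K g F1 x0 k) (mb p U K (hi (Du ι p K x s r U u) u) F3 x0 k)
          (mC p U K v F2 x0 k) k m|) +
      NS o (p.al U K) K x (fun x0 k m =>
        |nf3 (mA p U K g F1 x0 k) (mb p U K (lo (Du ι p K x s r U u) u) F3 x0 k)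
          (mC p U K (hi (Dv ι p K x s r U v) v) F2 x0 k) k m|) ≤ B)
    (fun ι _ _ p CD n ez F1 F2 F3 o K x s r U g u v B h => by
      simp only [hDu, hDv] at h
      exact h)
    (fun ι _ _ p CD n ez F1 F2 F3 o K x s r U g u v B h => by
      simp only [hDu, hDv] at h
      exact h)
    (fun ι _ _ p n ez F1 F2 F3 o K x s r U g u v B1 B2 B _ _ _ _ k1 k2 k3 Q1 Q2 Q3 q1 q2 q3 =>
      (add_le_add (k1 Q1 Q2 Q3 q1 q2 q3) (k2 Q1 Q2 Q3 q1 q2 q3)).trans k3)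
  have H2 := PartQ.add H1 HH (Φ := fun ι _ _ p n ez F1 F2 F3 o K x s r U g u v B =>
      ∀ Q1 Q2 Q3 : ℕ → Pt → Prop, BSl n p.e p.cP F1 Q1 → BSl n ez p.cP F2 Q2 →
      BSl n p.e p.cP F3 Q3 →
      NS o (p.al U K) K x (fun x0 k m =>
        |nf3 (mA p U K g F1 x0 k) (mb p U K (hi (Du ι p K x s r U u) u) F3 x0 k)
          (mC p U K v F2 x0 k) k m|) +
      (NS o (p.al U K) K x (fun x0 k m =>
        |nf3 (mA p U K g F1 x0 k) (mb p U K (lo (Du ι p K x s r U u) u) F3 x0 k)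
          (mC p U K (hi (Dv ι p K x s r U v) v) F2 x0 k) k m|) +
      (NS o (p.al U K) K x (fun x0 k m => |nf3 (hA p s r U K g F1 Q1 x0 k)
        (mb p U K (lo (Du ι p K x s r U u) u) F3 x0 k)
        (mC p U K (lo (Dv ι p K x s r U v) v) F2 x0 k) k m|) +
      (NS o (p.al U K) K x (fun x0 k m => |nf3 (cA p s r U K g F1 Q1 x0 k)
        (hb1 p s r U K (lo (Du ι p K x s r U u) u) F3 Q3 x0 k)
        (mC p U K (lo (Dv ι p K x s r U v) v) F2 x0 k) k m|) +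
      NS o (p.al U K) K x (fun x0 k m => |nf3 (cA p s r U K g F1 Q1 x0 k)
        (hb3 p s r U K (lo (Du ι p K x s r U u) u) F3 Q3 x0 k)
        (mC p U K (lo (Dv ι p K x s r U v) v) F2 x0 k) k m|)))) ≤ B)
    (fun ι _ _ p CD n ez F1 F2 F3 o K x s r U g u v B h => by
      simp only [hDu, hDv] at h
      exact h)
    (fun ι _ _ p CD n ez F1 F2 F3 o K x s r U g u v B h => by
      simp only [hDu, hDv] at h
      exact h)
    (fun ι _ _ p n ez F1 F2 F3 o K x s r U g u v B1 B2 B _ _ _ _ k1 k2 k3 Q1 Q2 Q3 q1 q2 q3 => by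
      have m1 := k1 Q1 Q2 Q3 q1 q2 q3
      have m2 := k2 Q1 Q2 Q3 q1 q2 q3
      linarith)
  have H4 := PartQ.add H2 HT (Φ := fun _ _ _ p n ez F1 F2 F3 o K x _ _ U g u v B =>
      ∀ Q1 Q2 Q3 : ℕ → Pt → Prop, BSl n p.e p.cP F1 Q1 → BSl n ez p.cP F2 Q2 →
      BSl n p.e p.cP F3 Q3 →
      cosA (p.al U K) o K x (cmp g u v) (fun k _ => F1 k) (fun k _ => F2 k) (fun k _ => F3 k) ≤ B)
    (fun ι _ _ p CD n ez F1 F2 F3 o K x s r U g u v B h => by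
      simp only [hDu, hDv] at h
      exact h)
    (fun ι _ _ p CD n ez F1 F2 F3 o K x s r U g u v B h => by
      simp only [hDu, hDv] at h
      exact h)
    (fun ι _ _ p n ez F1 F2 F3 o K x s r U g u v B1 B2 B ht hs hr ho k1 k2 k3 Q1 Q2 Q3 q1 q2 q3 =>
      by
      obtain ⟨sg, hsg, hc⟩ := cosA_cut5 (lo (Du ι p K x s r U u) u) ho
        (Num.lam_pos (p := p) ht hs hr)
        (agrN_m p o U K x g u v F1 F2 F3)
        (fun x0 k z y => mb_splitD p U K (Du ι p K x s r U u) u F3 x0 k z y)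
        (fun x0 k z y => mC_split p U K (Dv ι p K x s r U v) v F2 x0 k z y)
        (fun x0 k z y => mA_split p s r U K g F1 Q1 x0 k z y)
        (fun x0 k z y => mb_split p s r U K (lo (Du ι p K x s r U u) u) F3 Q3 x0 k z y)
      exact hc.trans ((add_le_add (k1 Q1 Q2 Q3 q1 q2 q3) (k2 Q1 Q2 Q3 q1 q2 q3 sg hsg)).trans k3))
  intro a ha ha1
  obtain ⟨es, hes, H⟩ := H4 a ha ha1
  obtain ⟨k8s, hk8s, H⟩ := H es hes le_rfl
  obtain ⟨k3s, hk3s, H⟩ := H k8s hk8s le_rfl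
  obtain ⟨gam, c1, d0, del, hgam, hc1, hd0, hdel, H⟩ := H k3s hk3s le_rfl
  refine ⟨gam, c1, d0, del, hgam, hc1, hd0, hdel, fun c hc hcc d hd hdd Kt e cP L hK he hcP hL => ?_⟩
  obtain ⟨CD, hCD, C, hC, H⟩ := H c hc hcc d hd hdd Kt e cP L hK he hcP hL
  refine ⟨C, hC, ?_⟩
  intro t ht ht1 n ez F1 F2 F3 f1 f3 f2 o ho K hKn x ι _ _ s r U g u v hs hr hcls
  obtain ⟨Q1, q1⟩ := f1.2.2.2
  obtain ⟨Q2, q2⟩ := f2.2
  obtain ⟨Q3, q3⟩ := f3.2.2.2
  exact H t ht ht1 n ez F1 F2 F3 f1 f3 f2 o ho K hKn x ι s r U g u v hs hr hcls Q1 Q2 Q3 q1 q2 q3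

/-! ### Makers which may use the fibres -/

/-- **Maker of the bundle `D` for class data with small fibres of `u` and of `v`** -/
def MkFU (D : Bun) : Prop :=
  PartQ fun ι _ _ p n ez F1 F2 F3 o K x s r U g u v Q1 _Q2 Q3 _B =>
    FibU p K x s r U u → FibP p K x s r U v →
    D ι p n ez F1 F2 F3 o K x s r U g u v (cA p s r U K g F1 Q1)
      (cb p s r U K u F3 Q3) (mC p U K v F2)

theorem MkF.toFU {D : Bun} (H : MkF D) : MkFU D := by
  unfold MkF PartQ at H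
  unfold MkFU PartQ
  intro a ha ha1
  obtain ⟨es, hes, H⟩ := H a ha ha1
  refine ⟨es, hes, fun e0 he0 he0' => ?_⟩
  obtain ⟨k8s, hk8s, H⟩ := H e0 he0 he0'
  refine ⟨k8s, hk8s, fun k8 hk8 hk8' => ?_⟩
  obtain ⟨k3s, hk3s, H⟩ := H k8 hk8 hk8'
  refine ⟨k3s, hk3s, fun k3 hk3 hk3' => ?_⟩
  obtain ⟨gam, c1, d0, del, hgam, hc1, hd0, hdel, H⟩ := H k3 hk3 hk3'
  refine ⟨gam, c1, d0, del, hgam, hc1, hd0, hdel, fun c hc hcc d hd hdd Kt e cP L hK he hcP hL => ?_⟩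
  obtain ⟨CD, hCD, C, hC, H⟩ := H c hc hcc d hd hdd Kt e cP L hK he hcP hL
  refine ⟨CD, hCD, C, hC, ?_⟩
  intro t ht ht1 n ez F1 F2 F3 h1 h3 h2 o ho K hKn x ι _ _ s r U g u v hs hr hcls Q1 Q2 Q3 q1 q2 q3
    _ f2
  exact H t ht ht1 n ez F1 F2 F3 h1 h3 h2 o ho K hKn x ι s r U g u v hs hr hcls Q1 Q2 Q3 q1 q2 q3
    f2

theorem MkSt.toFU {D : Bun} (H : MkSt D) : MkFU D := H.toF.toFU

/-- **Makers with small fibres serve the data with the dense fibres cut off.** -/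
theorem MkFU.toUV {D : Bun} (H : MkFU D) : MkStUV DuS DvS D := by
  unfold MkFU PartQ at H
  unfold MkStUV PartQ
  intro a ha ha1
  obtain ⟨es, hes, H⟩ := H a ha ha1
  refine ⟨es, hes, fun e0 he0 he0' => ?_⟩
  obtain ⟨k8s, hk8s, H⟩ := H e0 he0 he0'
  refine ⟨k8s, hk8s, fun k8 hk8 hk8' => ?_⟩
  obtain ⟨k3s, hk3s, H⟩ := H k8 hk8 hk8'
  refine ⟨k3s, hk3s, fun k3 hk3 hk3' => ?_⟩
  obtain ⟨gam, c1, d0, del, hgam, hc1, hd0, hdel, H⟩ := H k3 hk3 hk3'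
  refine ⟨gam, c1, min d0 8, del, hgam, hc1, lt_min hd0 (by norm_num), hdel,
    fun c hc hcc d hd hdd Kt e cP L hK he hcP hL => ?_⟩
  obtain ⟨CD, hCD, C, hC, H⟩ := H c hc hcc d hd (hdd.trans (min_le_left _ _)) Kt e cP L hK he hcP hL
  refine ⟨CD, hCD, C, hC, ?_⟩
  intro t ht ht1 n ez F1 F2 F3 h1 h3 h2 o ho K hKn x ι _ _ s r U g u v hs hr hcls Q1 Q2 Q3 q1 q2 q3
  have hcl2 := ClsM_loU (DuS ι ⟨a, e0, k8, k3, c, d, Kt, e, cP, L, CD, t⟩ K x s r U u)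
    (ClsM_lo (DvS ι ⟨a, e0, k8, k3, c, d, Kt, e, cP, L, CD, t⟩ K x s r U v) hcls)
  refine H t ht ht1 n ez F1 F2 F3 h1 h3 h2 o ho K hKn x ι s r U g _ _ hs hr hcl2
    Q1 Q2 Q3 q1 q2 q3 ?_ ?_
  · exact fib_DuS (p := ⟨a, e0, k8, k3, c, d, Kt, e, cP, L, CD, t⟩) ht ht1 hd.le
      (hdd.trans (min_le_right _ _)) hs hr hcls
  · exact fib_DvS (p := ⟨a, e0, k8, k3, c, d, Kt, e, cP, L, CD, t⟩) ht ht1 hd.le
      (hdd.trans (min_le_right _ _)) hs hr hcls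

/-- maker and part -/
theorem CStUV.of_mkFU {D : Bun} {T : FunF} (H1 : MkFU D) (H2 : PartF D T) : CStUV DuS DvS T :=
  CStUV.of_mk H1.toUV H2

/-- **The class statement from the prices of the functionals of the definite families.** -/
theorem ce1q_of_CStUV (H00 : HSt00 DuS) (H0 : HSt0 DvS) (H1 : HSt1) (H2 : HSt2) (H3 : HSt3)
    (HI : CStUV DuS DvS NI) (HZ : CStUV DuS DvS NZ) (HF : CStUV DuS DvS NF) : CE1q :=
  ce1q_of_cstUV DuS DvS DuS_CD DvS_CD H00 (H0.toU DuS DvS)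
    (((HSt.of_three H1 H2 H3).toV DvS).toU DuS DvS) HI HZ HF

/-- **The class statement from the leaves**: the bundles may use the fibres of `u` and of `v`. -/
theorem ce1q_of_MkFU {DI DZ DF : Bun} (H00 : HSt00 DuS) (H0 : HSt0 DvS) (H1 : HSt1) (H2 : HSt2)
    (H3 : HSt3) (MI : MkFU DI) (MZ : MkFU DZ) (MF : MkFU DF) (HI : PartF DI NI)
    (HZ : PartF DZ NZ) (HF : PartF DF NTFf) : CE1q := by
  have h : PartF DF NF := HF.le 1 zero_le_one fun ι _ _ l o _ Al K x u A b C sg => by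
    rw [one_mul]
    exact NF_le_TFf l o Al K x u A b C sg
  exact ce1q_of_CStUV H00 H0 H1 H2 H3 (CStUV.of_mkFU MI HI) (CStUV.of_mkFU MZ HZ)
    (CStUV.of_mkFU MF h)

end

end Vale.Agent.P141.H401
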