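import Vale.Agent.P141.H401.CutData

/-!
# P141, line (A), top: one more cut, the static cut of `v`

`Sel` : a set of points `(x1, x3)` for every class (444's set of dense fibres); `lo`, `hi` : the
part of `v` off the set and on it.  The part `hi` is not split (`HSt0`); everything else is applied
to the class data with `lo`, again class data.

* `cosA_cut4` : the cost with the cut of `C`, `A` and `b`;
* `MkStV D` : the cut families of the data with `lo` have the property `D`;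
* `ce1q_of_mkV` : the class statement.
-/

namespace Vale.Agent.P141.H401

open Finset Matrix
open Vale.Agent.P141.PL (Pt iv hs ix cx)
open Vale.Agent.P141.PL.H315 (Tri avg)
open Vale.Agent.P141.H48 (US ES BSl sst cst)
open Vale.Agent.P141.H579 (cosA)
open Vale.Agent.P141.H352 (In p)
open Vale.Agent.P141.H677
open Vale.Agent.P141.H305 (ClsM kapM CE1q cmp price_mono)

noncomputable section

open scoped Classical

set_option linter.unusedSectionVars false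

variable {ι : Type} [Fintype ι] [DecidableEq ι]

/-! ### The cut of `v` -/

/-- `v` off the set -/
def lo (D : ℤ → ℤ → Prop) (v : ℤ → ℤ → ι → ℝ) : ℤ → ℤ → ι → ℝ := fun x y =>
  if D x y then 0 else v x y

/-- `v` on the set -/
def hi (D : ℤ → ℤ → Prop) (v : ℤ → ℤ → ι → ℝ) : ℤ → ℤ → ι → ℝ := fun x y =>
  if D x y then v x y else 0

theorem lo_add_hi (D : ℤ → ℤ → Prop) (v : ℤ → ℤ → ι → ℝ) (x y : ℤ) :
    lo D v x y + hi D v x y = v x y := by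
  unfold lo hi
  split_ifs <;> simp

theorem lo_dot_sq (D : ℤ → ℤ → Prop) (v : ℤ → ℤ → ι → ℝ) (x y : ℤ) (w : ι → ℝ) :
    (lo D v x y ⬝ᵥ w) ^ 2 ≤ (v x y ⬝ᵥ w) ^ 2 := by
  unfold lo
  split_ifs
  · rw [zero_dotProduct, zero_pow two_ne_zero]
    positivity
  · exact le_rfl

theorem lo_self (D : ℤ → ℤ → Prop) (v : ℤ → ℤ → ι → ℝ) (x y : ℤ) :
    lo D v x y ⬝ᵥ lo D v x y ≤ v x y ⬝ᵥ v x y := by
  unfold lo
  split_ifs
  · rw [zero_dotProduct]
    exact sum_nonneg fun i _ => mul_self_nonneg _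
  · exact le_rfl

theorem mC_split (p : Num) (U : Tri) (K : ℕ) (D : ℤ → ℤ → Prop) (v : ℤ → ℤ → ι → ℝ)
    (F2 : ℕ → Pt → ℝ) (x0 : ℤ) (k : ℕ) (z x : ℤ) :
    mC p U K v F2 x0 k z x = mC p U K (lo D v) F2 x0 k z x + mC p U K (hi D v) F2 x0 k z x := by
  show kF p.Lm U.2.1 K F2 k (x0, x, z) • v x z = kF p.Lm U.2.1 K F2 k (x0, x, z) • lo D v x z +
    kF p.Lm U.2.1 K F2 k (x0, x, z) • hi D v x z
  rw [← smul_add, lo_add_hi]

theorem avg_mono' {X : Finset ℤ} {f g : ℤ → ℝ} (h : ∀ x ∈ X, f x ≤ g x) : avg X f ≤ avg X g := by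
  unfold Vale.Agent.P141.PL.H315.avg
  gcongr with i hi
  exact h i hi

/-- **The data with `lo` are again class data.** -/
theorem ClsM_lo {K : ℕ} {x : Pt} {s r P κ : ℝ} {U : Tri} {g : ℤ → ℤ → ℝ} {u v : ℤ → ℤ → ι → ℝ}
    (D : ℤ → ℤ → Prop) (h : ClsM K x s r P κ U g u v) : ClsM K x s r P κ U g u (lo D v) where
  U_g := h.U_g
  g_le := h.g_le
  U_u := h.U_u
  U_v := h.U_v
  u_le := h.u_le
  v_le := fun z hz y hy => (lo_self D v z y).trans (h.v_le z hz y hy)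
  U_u2 := h.U_u2
  U_v2 := h.U_v2
  U_g2 := h.U_g2
  g_row := h.g_row
  u_col := h.u_col
  u_row := h.u_row
  u_pot := h.u_pot
  v_pot := fun z hz w => (avg_mono' fun y _ => lo_dot_sq D v z y w).trans (h.v_pot z hz w)
  act := fun z hz => (h.act z hz).imp id fun h1 => ⟨h1.1, fun y => by
    unfold lo
    split_ifs
    · rfl
    · exact h1.2 y⟩
  r_le := h.r_le

/-! ### The cost -/

variable {o : ℤ} {Al : ℕ → Pt → Prop} {K : ℕ} {x : Pt} {g : ℤ × ℤ → ℝ} {u v : ℤ → ℤ → ι → ℝ}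
  {F1 F2 F3 : ℕ → Pt → ℝ} {A A' A'' : ℤ → ℕ → ℤ → ℤ → ℝ} {b b' b'' b₃ C C' C'' : ℤ → ℕ → ℤ → ℤ → ι → ℝ}

/-- **Four cuts**: `C = C' + C''`, `A = A' + A''`, `b = b' + b'' + b₃`. -/
theorem cosA_cut4 (ho : o = 1 ∨ o = -1) {l : ℝ} (hl : 0 < l)
    (h : AgrN o Al K x g u v F1 F2 F3 A b C)
    (hC : ∀ x0 k z x, C x0 k z x = C' x0 k z x + C'' x0 k z x)
    (hA : ∀ x0 k z y, A x0 k z y = A' x0 k z y + A'' x0 k z y)
    (hb : ∀ x0 k x y, b x0 k x y = b' x0 k x y + (b'' x0 k x y + b₃ x0 k x y)) :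
    ∃ sg : ℕ → Pt → ℝ, (∀ k m, |sg k m| ≤ 1) ∧
    cosA Al o K x (fun y => g y.2 * (u y.1 y.2.1 ⬝ᵥ v y.1 y.2.2)) (fun k _ => F1 k)
        (fun k _ => F2 k) (fun k _ => F3 k) ≤
      NS o Al K x (fun x0 k m => |nf3 (A x0 k) (b x0 k) (C'' x0 k) k m|) +
      (NS o Al K x (fun x0 k m => |nf3 (A'' x0 k) (b x0 k) (C' x0 k) k m|) +
      (NS o Al K x (fun x0 k m => |nf3 (A' x0 k) (b'' x0 k) (C' x0 k) k m|) +
      NS o Al K x (fun x0 k m => |nf3 (A' x0 k) (b₃ x0 k) (C' x0 k) k m|))) +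
      (NI ι l o Al K x u A' b' C' sg + NZ ι l o Al K x u A' b' C' sg +
        NF ι l o Al K x u A' b' C' sg) := by
  refine ⟨sgN o g u v F1 F2 F3, fun k m => abs_sgN_le .., ?_⟩
  set sg : ℕ → Pt → ℝ := sgN o g u v F1 F2 F3 with hsg
  have hs1 : ∀ k m, |sg k m| ≤ 1 := fun k m => abs_sgN_le ..
  rw [cosA_fam ho h]
  have eA : ∀ x0 k, A x0 k = fun z y => A' x0 k z y + A'' x0 k z y := fun x0 k => by
    funext z y
    exact hA x0 k z y
  have eb : ∀ x0 k, b x0 k = fun x y => b' x0 k x y + (b'' x0 k x y + b₃ x0 k x y) := fun x0 k => by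
    funext z y
    exact hb x0 k z y
  have eC : ∀ x0 k, C x0 k = fun z x => C' x0 k z x + C'' x0 k z x := fun x0 k => by
    funext z y
    exact hC x0 k z y
  have e1 : NS o Al K x (fun x0 k m => sg k (rv m) *
      (hs k x0 * nf3 (A x0 k) (b x0 k) (C x0 k) k m)) =
      NS o Al K x (fun x0 k m => sg k (rv m) * (hs k x0 *
        nf3 (A x0 k) (b x0 k) (C'' x0 k) k m)) +
      (NS o Al K x (fun x0 k m => sg k (rv m) * (hs k x0 *
        nf3 (A'' x0 k) (b x0 k) (C' x0 k) k m)) +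
      (NS o Al K x (fun x0 k m => sg k (rv m) * (hs k x0 *
        nf3 (A' x0 k) (b'' x0 k) (C' x0 k) k m)) +
      NS o Al K x (fun x0 k m => sg k (rv m) * (hs k x0 *
        nf3 (A' x0 k) (b₃ x0 k) (C' x0 k) k m)))) +
      NS o Al K x (fun x0 k m => sg k (rv m) * (hs k x0 *
        nf3 (A' x0 k) (b' x0 k) (C' x0 k) k m)) := by
    rw [← NS_add, ← NS_add, ← NS_add, ← NS_add]
    refine NS_congr fun x0 k hk m _ => ?_
    have e0 : nf3 (A x0 k) (b x0 k) (C x0 k) k m =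
        nf3 (A x0 k) (b x0 k) (C' x0 k) k m + nf3 (A x0 k) (b x0 k) (C'' x0 k) k m := by
      conv_lhs => rw [eC x0 k]
      exact nf3_addC ..
    have e2 : nf3 (A x0 k) (b x0 k) (C' x0 k) k m =
        nf3 (A' x0 k) (b x0 k) (C' x0 k) k m + nf3 (A'' x0 k) (b x0 k) (C' x0 k) k m := by
      conv_lhs => rw [eA x0 k]
      exact nf3_addA ..
    have e3 : nf3 (A' x0 k) (b x0 k) (C' x0 k) k m =
        nf3 (A' x0 k) (b' x0 k) (C' x0 k) k m +
          nf3 (A' x0 k) (fun x y => b'' x0 k x y + b₃ x0 k x y) (C' x0 k) k m := by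
      conv_lhs => rw [eb x0 k]
      exact nf3_addB ..
    have e4 : nf3 (A' x0 k) (fun x y => b'' x0 k x y + b₃ x0 k x y) (C' x0 k) k m =
        nf3 (A' x0 k) (b'' x0 k) (C' x0 k) k m + nf3 (A' x0 k) (b₃ x0 k) (C' x0 k) k m := nf3_addB ..
    rw [e0, e2, e3, e4]
    ring
  rw [e1]
  exact add_le_add (add_le_add (NS_sign_le sg hs1 _) (add_le_add (NS_sign_le sg hs1 _)
    (add_le_add (NS_sign_le sg hs1 _) (NS_sign_le sg hs1 _)))) (split_fam hl sg hs1 A' b' C')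

/-! ### Substitution of `v` -/

/-- a set of points `(x1, x3)` for every class -/
abbrev Sel : Type 1 :=
  ∀ (ι : Type) [Fintype ι] [DecidableEq ι], Num → ℕ → Pt → ℝ → ℝ → Tri → (ℤ → ℤ → ι → ℝ) →
    ℤ → ℤ → Prop

/-- **Substitution of `v`.** -/
theorem PartY.subst {Φ : StX} (Dv : Sel) (H : PartY Φ) :
    PartY fun ι _ _ p n ez F1 F2 F3 o K x s r U g u v B =>
      Φ ι p n ez F1 F2 F3 o K x s r U g u (lo (Dv ι p K x s r U v) v) B := by
  intro a ha ha1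
  obtain ⟨es, hes, H⟩ := H a ha ha1
  refine ⟨es, hes, fun e0 he0 he0' => ?_⟩
  obtain ⟨k8s, hk8s, H⟩ := H e0 he0 he0'
  refine ⟨k8s, hk8s, fun k8 hk8 hk8' => ?_⟩
  obtain ⟨k3s, hk3s, H⟩ := H k8 hk8 hk8'
  refine ⟨k3s, hk3s, fun k3 hk3 hk3' => ?_⟩
  obtain ⟨gam, c1, d0, del, hgam, hc1, hd0, hdel, H⟩ := H k3 hk3 hk3'
  refine ⟨gam, c1, d0, del, hgam, hc1, hd0, hdel, fun c hc hcc d hd hdd Kt e cP L hK he hcP hL => ?_⟩
  obtain ⟨CD, hCD, C, hC, H⟩ := H c hc hcc d hd hdd Kt e cP L hK he hcP hL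
  refine ⟨CD, hCD, C, hC, ?_⟩
  intro t ht ht1 n ez F1 F2 F3 h1 h3 h2 o ho K hKn x ι _ _ s r U g u v hs hr hcls
  exact H t ht ht1 n ez F1 F2 F3 h1 h3 h2 o ho K hKn x ι s r U g u _ hs hr (ClsM_lo _ hcls)

theorem PartX.subst {Φ : StX} (Dv : Sel) (H : PartX Φ) :
    PartX fun ι _ _ p n ez F1 F2 F3 o K x s r U g u v B =>
      Φ ι p n ez F1 F2 F3 o K x s r U g u (lo (Dv ι p K x s r U v) v) B := by
  intro a ha ha1
  obtain ⟨es, hes, H⟩ := H a ha ha1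
  refine ⟨es, hes, fun e0 he0 he0' => ?_⟩
  obtain ⟨k8s, hk8s, H⟩ := H e0 he0 he0'
  refine ⟨k8s, hk8s, fun k8 hk8 hk8' => ?_⟩
  obtain ⟨k3s, hk3s, H⟩ := H k8 hk8 hk8'
  refine ⟨k3s, hk3s, fun k3 hk3 hk3' => ?_⟩
  obtain ⟨gam, c1, d0, del, hgam, hc1, hd0, hdel, H⟩ := H k3 hk3 hk3'
  refine ⟨gam, c1, d0, del, hgam, hc1, hd0, hdel,
    fun c hc hcc d hd hdd Kt e cP L hK he hcP hL CD hCD => ?_⟩
  obtain ⟨C, hC, H⟩ := H c hc hcc d hd hdd Kt e cP L hK he hcP hL CD hCD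
  refine ⟨C, hC, ?_⟩
  intro t ht ht1 n ez F1 F2 F3 h1 h3 h2 o ho K hKn x ι _ _ s r U g u v hs hr hcls
  exact H t ht ht1 n ez F1 F2 F3 h1 h3 h2 o ho K hKn x ι s r U g u _ hs hr (ClsM_lo _ hcls)

/-! ### The leaves -/

/-- **Price of the part of `v` on the set.** -/
def HSt0 (Dv : Sel) : Prop :=
  PartQ fun ι _ _ p _n _ez F1 F2 F3 o K x s r U g u v _Q1 _Q2 _Q3 B =>
    NS o (p.al U K) K x (fun x0 k m =>
      |nf3 (mA p U K g F1 x0 k) (mb p U K u F3 x0 k)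
        (mC p U K (hi (Dv ι p K x s r U v) v) F2 x0 k) k m|) ≤ B

/-- **The cut families of the data with `lo` have the property `D`.** -/
def MkStV (Dv : Sel) (D : Bun) : Prop :=
  PartQ fun ι _ _ p n ez F1 F2 F3 o K x s r U g u v Q1 _Q2 Q3 _B =>
    D ι p n ez F1 F2 F3 o K x s r U g u (lo (Dv ι p K x s r U v) v) (cA p s r U K g F1 Q1)
      (cb p s r U K u F3 Q3) (mC p U K (lo (Dv ι p K x s r U v) v) F2)

/-- a maker for all class data is a maker for the data with `lo` -/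
theorem MkSt.toV (Dv : Sel) {D : Bun} (H : MkSt D) : MkStV Dv D := by
  unfold MkSt PartQ at H
  unfold MkStV PartQ
  exact PartY.subst Dv H

/-- the price of a functional of the cut families of the data with `lo` -/
def CStV (Dv : Sel) (T : FunF) : Prop :=
  PartQ fun ι _ _ p _n _ez F1 F2 F3 o K x s r U g u v Q1 _Q2 Q3 B =>
    ∀ sg : ℕ → Pt → ℝ, (∀ k m, |sg k m| ≤ 1) →
      T ι (p.lam s r) o (p.al U K) K x u (cA p s r U K g F1 Q1) (cb p s r U K u F3 Q3)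
        (mC p U K (lo (Dv ι p K x s r U v) v) F2) sg ≤ B

/-- **maker and part** -/
theorem CStV.of_mk {Dv : Sel} {D : Bun} {T : FunF} (H1 : MkStV Dv D) (H2 : PartF D T) :
    CStV Dv T := by
  unfold MkStV PartQ at H1
  unfold PartF at H2
  unfold CStV PartQ
  have H3 := PartX.subst Dv H2
  refine PartY.addX H1 H3 ?_
  intro ι _ _ p n ez F1 F2 F3 o K x s r U g u v B1 B2 B _ _ _ _ z1 _ k1 k2 k3 Q1 Q2 Q3 q1 q2 q3
    sg hsg
  exact (k2 _ _ _ (k1 Q1 Q2 Q3 q1 q2 q3) sg hsg).trans (by linarith)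

theorem CSt.toV (Dv : Sel) {T : FunF} (H : CSt T) : CStV Dv T := by
  unfold CSt PartQ at H
  unfold CStV PartQ
  exact PartY.subst Dv H

/-- the sum of the prices of the unsplit parts, data with `lo` -/
def HStV (Dv : Sel) : Prop :=
  PartQ fun ι _ _ p _n _ez F1 F2 F3 o K x s r U g u v Q1 _Q2 Q3 B =>
    NS o (p.al U K) K x (fun x0 k m => |nf3 (hA p s r U K g F1 Q1 x0 k) (mb p U K u F3 x0 k)
      (mC p U K (lo (Dv ι p K x s r U v) v) F2 x0 k) k m|) +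
    (NS o (p.al U K) K x (fun x0 k m => |nf3 (cA p s r U K g F1 Q1 x0 k)
      (hb1 p s r U K u F3 Q3 x0 k) (mC p U K (lo (Dv ι p K x s r U v) v) F2 x0 k) k m|) +
    NS o (p.al U K) K x (fun x0 k m => |nf3 (cA p s r U K g F1 Q1 x0 k)
      (hb3 p s r U K u F3 Q3 x0 k) (mC p U K (lo (Dv ι p K x s r U v) v) F2 x0 k) k m|)) ≤ B

theorem HSt.toV (Dv : Sel) (H : HSt) : HStV Dv := by
  unfold HSt PartQ at H
  unfold HStV PartQ
  exact PartY.subst Dv H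

/-- **The class statement from the prices of the cut families, four cuts.** -/
theorem ce1q_of_cstV (Dv : Sel)
    (hDv : ∀ (ι : Type) [Fintype ι] [DecidableEq ι] (p : Num) (CD : ℝ) (K : ℕ) (x : Pt) (s r : ℝ)
      (U : Tri) (v : ℤ → ℤ → ι → ℝ), Dv ι { p with CD := CD } K x s r U v = Dv ι p K x s r U v)
    (H0 : HSt0 Dv) (HH : HStV Dv) (HI : CStV Dv NI) (HZ : CStV Dv NZ) (HF : CStV Dv NF) :
    CE1q := by
  unfold HSt0 PartQ at H0
  unfold HStV PartQ at HH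
  unfold CStV PartQ at HI HZ HF
  have H1 := PartQ.add H0 HH (Φ := fun ι _ _ p n ez F1 F2 F3 o K x s r U g u v B =>
      ∀ Q1 Q2 Q3 : ℕ → Pt → Prop, BSl n p.e p.cP F1 Q1 → BSl n ez p.cP F2 Q2 →
      BSl n p.e p.cP F3 Q3 →
      NS o (p.al U K) K x (fun x0 k m =>
        |nf3 (mA p U K g F1 x0 k) (mb p U K u F3 x0 k)
          (mC p U K (hi (Dv ι p K x s r U v) v) F2 x0 k) k m|) +
      (NS o (p.al U K) K x (fun x0 k m => |nf3 (hA p s r U K g F1 Q1 x0 k) (mb p U K u F3 x0 k)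
        (mC p U K (lo (Dv ι p K x s r U v) v) F2 x0 k) k m|) +
      (NS o (p.al U K) K x (fun x0 k m => |nf3 (cA p s r U K g F1 Q1 x0 k)
        (hb1 p s r U K u F3 Q3 x0 k) (mC p U K (lo (Dv ι p K x s r U v) v) F2 x0 k) k m|) +
      NS o (p.al U K) K x (fun x0 k m => |nf3 (cA p s r U K g F1 Q1 x0 k)
        (hb3 p s r U K u F3 Q3 x0 k) (mC p U K (lo (Dv ι p K x s r U v) v) F2 x0 k) k m|))) ≤ B)
    (fun ι _ _ p CD n ez F1 F2 F3 o K x s r U g u v B h => by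
      simp only [hDv] at h
      exact h)
    (fun ι _ _ p CD n ez F1 F2 F3 o K x s r U g u v B h => by
      simp only [hDv] at h
      exact h)
    (fun ι _ _ p n ez F1 F2 F3 o K x s r U g u v B1 B2 B _ _ _ _ k1 k2 k3 Q1 Q2 Q3 q1 q2 q3 =>
      (add_le_add (k1 Q1 Q2 Q3 q1 q2 q3) (k2 Q1 Q2 Q3 q1 q2 q3)).trans k3)
  have H2 := PartQ.add HI HZ (Φ := fun ι _ _ p n ez F1 F2 F3 o K x s r U g u v B =>
      ∀ Q1 Q2 Q3 : ℕ → Pt → Prop, BSl n p.e p.cP F1 Q1 → BSl n ez p.cP F2 Q2 →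
      BSl n p.e p.cP F3 Q3 → ∀ sg : ℕ → Pt → ℝ, (∀ k m, |sg k m| ≤ 1) →
      NI ι (p.lam s r) o (p.al U K) K x u (cA p s r U K g F1 Q1) (cb p s r U K u F3 Q3)
        (mC p U K (lo (Dv ι p K x s r U v) v) F2) sg +
      NZ ι (p.lam s r) o (p.al U K) K x u (cA p s r U K g F1 Q1) (cb p s r U K u F3 Q3)
        (mC p U K (lo (Dv ι p K x s r U v) v) F2) sg ≤ B)
    (fun ι _ _ p CD n ez F1 F2 F3 o K x s r U g u v B h => by
      simp only [hDv] at h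
      exact h)
    (fun ι _ _ p CD n ez F1 F2 F3 o K x s r U g u v B h => by
      simp only [hDv] at h
      exact h)
    (fun ι _ _ p n ez F1 F2 F3 o K x s r U g u v B1 B2 B _ _ _ _ k1 k2 k3 Q1 Q2 Q3 q1 q2 q3 sg hsg =>
      (add_le_add (k1 Q1 Q2 Q3 q1 q2 q3 sg hsg) (k2 Q1 Q2 Q3 q1 q2 q3 sg hsg)).trans k3)
  have H3 := PartQ.add H2 HF (Φ := fun ι _ _ p n ez F1 F2 F3 o K x s r U g u v B =>
      ∀ Q1 Q2 Q3 : ℕ → Pt → Prop, BSl n p.e p.cP F1 Q1 → BSl n ez p.cP F2 Q2 →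
      BSl n p.e p.cP F3 Q3 → ∀ sg : ℕ → Pt → ℝ, (∀ k m, |sg k m| ≤ 1) →
      NI ι (p.lam s r) o (p.al U K) K x u (cA p s r U K g F1 Q1) (cb p s r U K u F3 Q3)
        (mC p U K (lo (Dv ι p K x s r U v) v) F2) sg +
      NZ ι (p.lam s r) o (p.al U K) K x u (cA p s r U K g F1 Q1) (cb p s r U K u F3 Q3)
        (mC p U K (lo (Dv ι p K x s r U v) v) F2) sg +
      NF ι (p.lam s r) o (p.al U K) K x u (cA p s r U K g F1 Q1) (cb p s r U K u F3 Q3)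
        (mC p U K (lo (Dv ι p K x s r U v) v) F2) sg ≤ B)
    (fun ι _ _ p CD n ez F1 F2 F3 o K x s r U g u v B h => by
      simp only [hDv] at h
      exact h)
    (fun ι _ _ p CD n ez F1 F2 F3 o K x s r U g u v B h => by
      simp only [hDv] at h
      exact h)
    (fun ι _ _ p n ez F1 F2 F3 o K x s r U g u v B1 B2 B _ _ _ _ k1 k2 k3 Q1 Q2 Q3 q1 q2 q3 sg hsg =>
      (add_le_add (k1 Q1 Q2 Q3 q1 q2 q3 sg hsg) (k2 Q1 Q2 Q3 q1 q2 q3 sg hsg)).trans k3)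
  have H4 := PartQ.add H1 H3 (Φ := fun _ _ _ p n ez F1 F2 F3 o K x _ _ U g u v B =>
      ∀ Q1 Q2 Q3 : ℕ → Pt → Prop, BSl n p.e p.cP F1 Q1 → BSl n ez p.cP F2 Q2 →
      BSl n p.e p.cP F3 Q3 →
      cosA (p.al U K) o K x (cmp g u v) (fun k _ => F1 k) (fun k _ => F2 k) (fun k _ => F3 k) ≤ B)
    (fun ι _ _ p CD n ez F1 F2 F3 o K x s r U g u v B h => by
      simp only [hDv] at h
      exact h)
    (fun ι _ _ p CD n ez F1 F2 F3 o K x s r U g u v B h => by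
      simp only [hDv] at h
      exact h)
    (fun ι _ _ p n ez F1 F2 F3 o K x s r U g u v B1 B2 B ht hs hr ho k1 k2 k3 Q1 Q2 Q3 q1 q2 q3 =>
      by
      obtain ⟨sg, hsg, hc⟩ := cosA_cut4 ho (Num.lam_pos (p := p) ht hs hr)
        (agrN_m p o U K x g u v F1 F2 F3)
        (fun x0 k z y => mC_split p U K (Dv ι p K x s r U v) v F2 x0 k z y)
        (fun x0 k z y => mA_split p s r U K g F1 Q1 x0 k z y)
        (fun x0 k z y => mb_split p s r U K u F3 Q3 x0 k z y)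
      exact hc.trans ((add_le_add (k1 Q1 Q2 Q3 q1 q2 q3) (k2 Q1 Q2 Q3 q1 q2 q3 sg hsg)).trans k3))
  intro a ha ha1
  obtain ⟨es, hes, H⟩ := H4 a ha ha1
  obtain ⟨k8s, hk8s, H⟩ := H es hes le_rfl
  obtain ⟨k3s, hk3s, H⟩ := H k8s hk8s le_rfl
  obtain ⟨gam, c1, d0, del, hgam, hc1, hd0, hdel, H⟩ := H k3s hk3s le_rfl
  refine ⟨gam, c1, d0, del, hgam, hc1, hd0, hdel, fun c hc hcc d hd hdd Kt e cP L hK he hcP hL => ?_⟩
  obtain ⟨CD, hCD, C, hC, H⟩ := H c hc hcc d hd hdd Kt e cP L hK he hcP hL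
  refine ⟨C, hC, ?_⟩
  intro t ht ht1 n ez F1 F2 F3 f1 f3 f2 o ho K hKn x ι _ _ s r U g u v hs hr hcls
  obtain ⟨Q1, q1⟩ := f1.2.2.2
  obtain ⟨Q2, q2⟩ := f2.2
  obtain ⟨Q3, q3⟩ := f3.2.2.2
  exact H t ht ht1 n ez F1 F2 F3 f1 f3 f2 o ho K hKn x ι s r U g u v hs hr hcls Q1 Q2 Q3 q1 q2 q3

/-- **The class statement from the leaves, with the cut of `v`.** -/
theorem ce1q_of_mkV (Dv : Sel)
    (hDv : ∀ (ι : Type) [Fintype ι] [DecidableEq ι] (p : Num) (CD : ℝ) (K : ℕ) (x : Pt) (s r : ℝ)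
      (U : Tri) (v : ℤ → ℤ → ι → ℝ), Dv ι { p with CD := CD } K x s r U v = Dv ι p K x s r U v)
    {DI DZ DF : Bun} (H0 : HSt0 Dv) (H1 : HSt1) (H2 : HSt2) (H3 : HSt3) (MI : MkStV Dv DI)
    (MZ : MkStV Dv DZ) (MF : MkStV Dv DF) (HI : PartF DI NI) (HZ : PartF DZ NZ)
    (HF : PartF DF NTFf) : CE1q := by
  have h : PartF DF NF := HF.le 1 zero_le_one fun ι _ _ l o _ Al K x u A b C sg => by
    rw [one_mul]
    exact NF_le_TFf l o Al K x u A b C sg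
  exact ce1q_of_cstV Dv hDv H0 ((HSt.of_three H1 H2 H3).toV Dv) (CStV.of_mk MI HI)
    (CStV.of_mk MZ HZ) (CStV.of_mk MF h)

end

end Vale.Agent.P141.H401
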