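import Vale.Agent.P141.H401.Adapt
import Vale.Agent.P141.H576.GapI
import Vale.Agent.P141.H80.LightCut

/-!
# P141, line (A), top: the definite cut families and the class statement from the leaves

* `mA`, `mb`, `mC` : the killed families; `qA`, `qB`, `qC` : their affected squares;
* `cA`, `hA` : low and high part of `mA` (cut at `th ^ 2`); `b1`, `hb1` : the same for `mb`;
  `cb`, `hb3` : low and high part of `b1`, weighted cut at `be ^ 2`;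
* `PartQ` : statements with the stops `Q1`, `Q2`, `Q3`;
* `MkSt D` : the cut families have the property `D`; `HSt1`, `HSt2`, `HSt3` : prices of the unsplit
  parts;
* `ce1q_of_mk` : the class statement.
-/

namespace Vale.Agent.P141.H401

open Finset Matrix
open Vale.Agent.P141.PL (Pt iv hs ix cx)
open Vale.Agent.P141.PL.H315 (Tri)
open Vale.Agent.P141.H48 (US ES BSl sst cst)
open Vale.Agent.P141.H579 (cosA)
open Vale.Agent.P141.H677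
open Vale.Agent.P141.H576 (QD)
open Vale.Agent.P141.H305 (ClsM kapM CE1q cmp price_mono)

noncomputable section

open scoped Classical

set_option linter.unusedSectionVars false

variable {ι : Type} [Fintype ι] [DecidableEq ι]

/-! ### Families -/

/-- the killed family `A` -/
def mA (p : Num) (U : Tri) (K : ℕ) (g : ℤ → ℤ → ℝ) (F1 : ℕ → Pt → ℝ) : ℤ → ℕ → ℤ → ℤ → ℝ :=
  fA (fun q => g q.1 q.2) (kF p.Lm U.2.2 K F1)

/-- the killed family `b` -/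
def mb (p : Num) (U : Tri) (K : ℕ) (u : ℤ → ℤ → ι → ℝ) (F3 : ℕ → Pt → ℝ) :
    ℤ → ℕ → ℤ → ℤ → ι → ℝ :=
  fb u (kF p.Lm U.1 K F3)

/-- the killed family `C` -/
def mC (p : Num) (U : Tri) (K : ℕ) (v : ℤ → ℤ → ι → ℝ) (F2 : ℕ → Pt → ℝ) :
    ℤ → ℕ → ℤ → ℤ → ι → ℝ :=
  fC v (kF p.Lm U.2.1 K F2)

/-- affected squares of `mA`, order `(z, y)` -/
def qA (p : Num) (U : Tri) (K : ℕ) (Q1 : ℕ → Pt → Prop) (k : ℕ) (i z y : ℤ) : Prop :=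
  QD (fun k x y => sst p.Lm U.2.2 K k x y) Q1 k i y z

/-- affected squares of `mb`, order `(x, y)` -/
def qB (p : Num) (U : Tri) (K : ℕ) (Q3 : ℕ → Pt → Prop) (k : ℕ) (i x y : ℤ) : Prop :=
  QD (fun k x y => sst p.Lm U.1 K k x y) Q3 k i x y

/-- affected squares of `mC`, order `(z, x)` -/
def qC (p : Num) (U : Tri) (K : ℕ) (Q2 : ℕ → Pt → Prop) (k : ℕ) (i z x : ℤ) : Prop :=
  QD (fun k x y => sst p.Lm U.2.1 K k x y) Q2 k i x z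

/-- low part of `A` -/
def cA (p : Num) (s r : ℝ) (U : Tri) (K : ℕ) (g : ℤ → ℤ → ℝ) (F1 : ℕ → Pt → ℝ)
    (Q1 : ℕ → Pt → Prop) : ℤ → ℕ → ℤ → ℤ → ℝ := fun x0 =>
  H205.low1 (fun k n m => qA p U K Q1 k (ix k x0) n m) (p.th s r ^ 2) (mA p U K g F1 x0)

/-- high part of `A` -/
def hA (p : Num) (s r : ℝ) (U : Tri) (K : ℕ) (g : ℤ → ℤ → ℝ) (F1 : ℕ → Pt → ℝ)
    (Q1 : ℕ → Pt → Prop) : ℤ → ℕ → ℤ → ℤ → ℝ := fun x0 =>
  H205.high1 (fun k n m => qA p U K Q1 k (ix k x0) n m) (p.th s r ^ 2) (mA p U K g F1 x0)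

/-- low part of `b`, first cut -/
def b1 (p : Num) (s r : ℝ) (U : Tri) (K : ℕ) (u : ℤ → ℤ → ι → ℝ) (F3 : ℕ → Pt → ℝ)
    (Q3 : ℕ → Pt → Prop) : ℤ → ℕ → ℤ → ℤ → ι → ℝ := fun x0 =>
  H205.lowF (fun k n m => qB p U K Q3 k (ix k x0) n m) (p.th s r ^ 2) (mb p U K u F3 x0)

/-- high part of `b`, first cut -/
def hb1 (p : Num) (s r : ℝ) (U : Tri) (K : ℕ) (u : ℤ → ℤ → ι → ℝ) (F3 : ℕ → Pt → ℝ)
    (Q3 : ℕ → Pt → Prop) : ℤ → ℕ → ℤ → ℤ → ι → ℝ := fun x0 k x y l =>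
  mb p U K u F3 x0 k x y l - b1 p s r U K u F3 Q3 x0 k x y l

/-- low part of `b`, both cuts -/
def cb (p : Num) (s r : ℝ) (U : Tri) (K : ℕ) (u : ℤ → ℤ → ι → ℝ) (F3 : ℕ → Pt → ℝ)
    (Q3 : ℕ → Pt → Prop) : ℤ → ℕ → ℤ → ℤ → ι → ℝ := fun x0 =>
  H80.lowW (fun k n m => qB p U K Q3 k (ix k x0) n m) (KT (p.lam s r) u)
    (p.be s r ^ 2 / √(p.lam s r)) (b1 p s r U K u F3 Q3 x0)

/-- high part of `b1`, second cut -/
def hb3 (p : Num) (s r : ℝ) (U : Tri) (K : ℕ) (u : ℤ → ℤ → ι → ℝ) (F3 : ℕ → Pt → ℝ)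
    (Q3 : ℕ → Pt → Prop) : ℤ → ℕ → ℤ → ℤ → ι → ℝ := fun x0 =>
  H80.highW (fun k n m => qB p U K Q3 k (ix k x0) n m) (KT (p.lam s r) u)
    (p.be s r ^ 2 / √(p.lam s r)) (b1 p s r U K u F3 Q3 x0)

theorem mA_split (p : Num) (s r : ℝ) (U : Tri) (K : ℕ) (g : ℤ → ℤ → ℝ) (F1 : ℕ → Pt → ℝ)
    (Q1 : ℕ → Pt → Prop) (x0 : ℤ) (k : ℕ) (z y : ℤ) :
    mA p U K g F1 x0 k z y = cA p s r U K g F1 Q1 x0 k z y + hA p s r U K g F1 Q1 x0 k z y := by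
  unfold cA hA
  exact (H205.low1_add_high1 k z y).symm

theorem mb_split (p : Num) (s r : ℝ) (U : Tri) (K : ℕ) (u : ℤ → ℤ → ι → ℝ) (F3 : ℕ → Pt → ℝ)
    (Q3 : ℕ → Pt → Prop) (x0 : ℤ) (k : ℕ) (x y : ℤ) :
    mb p U K u F3 x0 k x y = cb p s r U K u F3 Q3 x0 k x y +
      (hb1 p s r U K u F3 Q3 x0 k x y + hb3 p s r U K u F3 Q3 x0 k x y) := by
  funext l
  have e := H80.low_add_high (Q := fun k n m => qB p U K Q3 k (ix k x0) n m)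
    (K := KT (p.lam s r) u) (c := p.be s r ^ 2 / √(p.lam s r))
    (F := b1 p s r U K u F3 Q3 x0) k x y l
  show mb p U K u F3 x0 k x y l = cb p s r U K u F3 Q3 x0 k x y l +
    ((mb p U K u F3 x0 k x y l - b1 p s r U K u F3 Q3 x0 k x y l) +
      hb3 p s r U K u F3 Q3 x0 k x y l)
  rw [← e]
  unfold cb hb3
  ring

theorem agrN_m (p : Num) (o : ℤ) (U : Tri) (K : ℕ) (x : Pt) (g : ℤ → ℤ → ℝ)
    (u v : ℤ → ℤ → ι → ℝ) (F1 F2 F3 : ℕ → Pt → ℝ) :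
    AgrN o (p.al U K) K x (fun q => g q.1 q.2) u v F1 F2 F3 (mA p U K g F1) (mb p U K u F3)
      (mC p U K v F2) :=
  agrN_kF o p.Lm U K x (fun q => g q.1 q.2) u v F1 F2 F3

/-! ### Statements with the stops -/

/-- statements about class data and stops with a bound -/
abbrev StQ : Type 1 :=
  ∀ (ι : Type) [Fintype ι] [DecidableEq ι], Num → ℕ → ℝ → (ℕ → Pt → ℝ) → (ℕ → Pt → ℝ) →
    (ℕ → Pt → ℝ) → ℤ → ℕ → Pt → ℝ → ℝ → Tri → (ℤ → ℤ → ℝ) → (ℤ → ℤ → ι → ℝ) →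
    (ℤ → ℤ → ι → ℝ) → (ℕ → Pt → Prop) → (ℕ → Pt → Prop) → (ℕ → Pt → Prop) → ℝ → Prop

/-- **For all stops.** -/
def PartQ (Φ : StQ) : Prop :=
  PartY fun ι _ _ p n ez F1 F2 F3 o K x s r U g u v B =>
    ∀ Q1 Q2 Q3 : ℕ → Pt → Prop, BSl n p.e p.cP F1 Q1 → BSl n ez p.cP F2 Q2 →
      BSl n p.e p.cP F3 Q3 → Φ ι p n ez F1 F2 F3 o K x s r U g u v Q1 Q2 Q3 B

/-- **The cut families have the property `D`.** -/
def MkSt (D : Bun) : Prop :=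
  PartQ fun ι _ _ p n ez F1 F2 F3 o K x s r U g u v Q1 _Q2 Q3 _B =>
    D ι p n ez F1 F2 F3 o K x s r U g u v (cA p s r U K g F1 Q1) (cb p s r U K u F3 Q3)
      (mC p U K v F2)

/-- **Price of the high part of `A`.** -/
def HSt1 : Prop :=
  PartQ fun _ _ _ p _n _ez F1 F2 F3 o K x s r U g u v Q1 _Q2 _Q3 B =>
    NS o (p.al U K) K x (fun x0 k m =>
      |nf3 (hA p s r U K g F1 Q1 x0 k) (mb p U K u F3 x0 k) (mC p U K v F2 x0 k) k m|) ≤ B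

/-- **Price of the high part of `b`, first cut.** -/
def HSt2 : Prop :=
  PartQ fun _ _ _ p _n _ez F1 F2 F3 o K x s r U g u v Q1 _Q2 Q3 B =>
    NS o (p.al U K) K x (fun x0 k m =>
      |nf3 (cA p s r U K g F1 Q1 x0 k) (hb1 p s r U K u F3 Q3 x0 k) (mC p U K v F2 x0 k) k m|) ≤ B

/-- **Price of the high part of `b`, second cut.** -/
def HSt3 : Prop :=
  PartQ fun _ _ _ p _n _ez F1 F2 F3 o K x s r U g u v Q1 _Q2 Q3 B =>
    NS o (p.al U K) K x (fun x0 k m =>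
      |nf3 (cA p s r U K g F1 Q1 x0 k) (hb3 p s r U K u F3 Q3 x0 k) (mC p U K v F2 x0 k) k m|) ≤ B

/-- the price of a functional of the cut families -/
def CSt (T : FunF) : Prop :=
  PartQ fun ι _ _ p _n _ez F1 F2 F3 o K x s r U g u v Q1 _Q2 Q3 B =>
    ∀ sg : ℕ → Pt → ℝ, (∀ k m, |sg k m| ≤ 1) →
      T ι (p.lam s r) o (p.al U K) K x u (cA p s r U K g F1 Q1) (cb p s r U K u F3 Q3)
        (mC p U K v F2) sg ≤ B

/-- **maker and part** -/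
theorem CSt.of_mk {D : Bun} {T : FunF} (H1 : MkSt D) (H2 : PartF D T) : CSt T := by
  unfold MkSt PartQ at H1
  unfold PartF at H2
  unfold CSt PartQ
  refine PartY.addX H1 H2 ?_
  intro ι _ _ p n ez F1 F2 F3 o K x s r U g u v B1 B2 B _ _ _ _ z1 _ k1 k2 k3 Q1 Q2 Q3 q1 q2 q3
    sg hsg
  exact (k2 _ _ _ (k1 Q1 Q2 Q3 q1 q2 q3) sg hsg).trans (by linarith)

/-- **Two prices of the cut families together** (each with its own constant). -/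
theorem PartQ.add {Φ1 Φ2 Φ : StX} (H1 : PartY Φ1) (H2 : PartY Φ2)
    (i1 : ∀ (ι : Type) [Fintype ι] [DecidableEq ι] (p : Num) (CD : ℝ) (n : ℕ) (ez : ℝ)
      (F1 F2 F3 : ℕ → Pt → ℝ) (o : ℤ) (K : ℕ) (x : Pt) (s r : ℝ) (U : Tri) (g : ℤ → ℤ → ℝ)
      (u v : ℤ → ℤ → ι → ℝ) (B : ℝ), Φ1 ι { p with CD := CD } n ez F1 F2 F3 o K x s r U g u v B →
        Φ1 ι p n ez F1 F2 F3 o K x s r U g u v B)
    (i2 : ∀ (ι : Type) [Fintype ι] [DecidableEq ι] (p : Num) (CD : ℝ) (n : ℕ) (ez : ℝ)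
      (F1 F2 F3 : ℕ → Pt → ℝ) (o : ℤ) (K : ℕ) (x : Pt) (s r : ℝ) (U : Tri) (g : ℤ → ℤ → ℝ)
      (u v : ℤ → ℤ → ι → ℝ) (B : ℝ), Φ2 ι { p with CD := CD } n ez F1 F2 F3 o K x s r U g u v B →
        Φ2 ι p n ez F1 F2 F3 o K x s r U g u v B)
    (h : ∀ (ι : Type) [Fintype ι] [DecidableEq ι] (p : Num) (n : ℕ) (ez : ℝ)
      (F1 F2 F3 : ℕ → Pt → ℝ) (o : ℤ) (K : ℕ) (x : Pt) (s r : ℝ) (U : Tri) (g : ℤ → ℤ → ℝ)
      (u v : ℤ → ℤ → ι → ℝ) (B1 B2 B : ℝ), 0 < p.t → 0 < s → 1 ≤ r → o = 1 ∨ o = -1 →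
      Φ1 ι p n ez F1 F2 F3 o K x s r U g u v B1 → Φ2 ι p n ez F1 F2 F3 o K x s r U g u v B2 →
      B1 + B2 ≤ B → Φ ι p n ez F1 F2 F3 o K x s r U g u v B) : PartY Φ := by
  refine PartY.add H1 H2 ?_
  intro ι _ _ p CD1 CD2 n ez F1 F2 F3 o K x s r U g u v B1 B2 B ht hs hr ho _ _ _ _ _ _ k1 k2 k3
  exact h ι p n ez F1 F2 F3 o K x s r U g u v B1 B2 B ht hs hr ho
    (i1 ι p CD1 n ez F1 F2 F3 o K x s r U g u v B1 k1)
    (i2 ι p CD2 n ez F1 F2 F3 o K x s r U g u v B2 k2) k3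

/-- the sum of the prices of the unsplit parts -/
def HSt : Prop :=
  PartQ fun _ _ _ p _n _ez F1 F2 F3 o K x s r U g u v Q1 _Q2 Q3 B =>
    NS o (p.al U K) K x (fun x0 k m =>
      |nf3 (hA p s r U K g F1 Q1 x0 k) (mb p U K u F3 x0 k) (mC p U K v F2 x0 k) k m|) +
    (NS o (p.al U K) K x (fun x0 k m =>
      |nf3 (cA p s r U K g F1 Q1 x0 k) (hb1 p s r U K u F3 Q3 x0 k) (mC p U K v F2 x0 k) k m|) +
    NS o (p.al U K) K x (fun x0 k m =>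
      |nf3 (cA p s r U K g F1 Q1 x0 k) (hb3 p s r U K u F3 Q3 x0 k) (mC p U K v F2 x0 k) k m|)) ≤ B

theorem HSt.of_three (H1 : HSt1) (H2 : HSt2) (H3 : HSt3) : HSt := by
  unfold HSt1 PartQ at H1
  unfold HSt2 PartQ at H2
  unfold HSt3 PartQ at H3
  have H23 := PartQ.add H2 H3 (Φ := fun _ _ _ p n ez F1 F2 F3 o K x s r U g u v B =>
      ∀ Q1 Q2 Q3 : ℕ → Pt → Prop, BSl n p.e p.cP F1 Q1 → BSl n ez p.cP F2 Q2 →
      BSl n p.e p.cP F3 Q3 →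
    NS o (p.al U K) K x (fun x0 k m =>
      |nf3 (cA p s r U K g F1 Q1 x0 k) (hb1 p s r U K u F3 Q3 x0 k) (mC p U K v F2 x0 k) k m|) +
    NS o (p.al U K) K x (fun x0 k m =>
      |nf3 (cA p s r U K g F1 Q1 x0 k) (hb3 p s r U K u F3 Q3 x0 k) (mC p U K v F2 x0 k) k m|) ≤ B)
    (fun ι _ _ p CD n ez F1 F2 F3 o K x s r U g u v B h => h)
    (fun ι _ _ p CD n ez F1 F2 F3 o K x s r U g u v B h => h)
    (fun ι _ _ p n ez F1 F2 F3 o K x s r U g u v B1 B2 B _ _ _ _ k1 k2 k3 Q1 Q2 Q3 q1 q2 q3 =>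
      (add_le_add (k1 Q1 Q2 Q3 q1 q2 q3) (k2 Q1 Q2 Q3 q1 q2 q3)).trans k3)
  unfold HSt PartQ
  exact PartQ.add H1 H23
    (fun ι _ _ p CD n ez F1 F2 F3 o K x s r U g u v B h => h)
    (fun ι _ _ p CD n ez F1 F2 F3 o K x s r U g u v B h => h)
    (fun ι _ _ p n ez F1 F2 F3 o K x s r U g u v B1 B2 B _ _ _ _ k1 k2 k3 Q1 Q2 Q3 q1 q2 q3 =>
      (add_le_add (k1 Q1 Q2 Q3 q1 q2 q3) (k2 Q1 Q2 Q3 q1 q2 q3)).trans k3)

/-- **Two functionals of the cut families.** -/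
theorem CSt.add {T1 T2 T : FunF} (H1 : CSt T1) (H2 : CSt T2)
    (h : ∀ (ι : Type) [Fintype ι] [DecidableEq ι] (l : ℝ) (o : ℤ) (Al : ℕ → Pt → Prop) (K : ℕ)
      (x : Pt) (u : ℤ → ℤ → ι → ℝ) (A : ℤ → ℕ → ℤ → ℤ → ℝ) (b C : ℤ → ℕ → ℤ → ℤ → ι → ℝ)
      (sg : ℕ → Pt → ℝ), T ι l o Al K x u A b C sg ≤ T1 ι l o Al K x u A b C sg +
        T2 ι l o Al K x u A b C sg) : CSt T := by
  unfold CSt PartQ at H1 H2 ⊢
  exact PartQ.add H1 H2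
    (fun ι _ _ p CD n ez F1 F2 F3 o K x s r U g u v B h => h)
    (fun ι _ _ p CD n ez F1 F2 F3 o K x s r U g u v B h => h)
    (fun ι _ _ p n ez F1 F2 F3 o K x s r U g u v B1 B2 B _ _ _ _ k1 k2 k3 Q1 Q2 Q3 q1 q2 q3 sg
      hsg => (h ι _ o _ K x u _ _ _ sg).trans ((add_le_add (k1 Q1 Q2 Q3 q1 q2 q3 sg hsg)
        (k2 Q1 Q2 Q3 q1 q2 q3 sg hsg)).trans k3))

/-- **The class statement from the prices of the cut families.** -/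
theorem ce1q_of_cst (HH : HSt) (HI : CSt NI) (HZ : CSt NZ) (HF : CSt NF) : CE1q := by
  have H3 := (HI.add HZ (T := fun ι _ _ l o Al K x u A b C sg =>
    NI ι l o Al K x u A b C sg + NZ ι l o Al K x u A b C sg)
    fun ι _ _ l o Al K x u A b C sg => le_rfl).add HF (T := fun ι _ _ l o Al K x u A b C sg =>
    NI ι l o Al K x u A b C sg + NZ ι l o Al K x u A b C sg + NF ι l o Al K x u A b C sg)
    fun ι _ _ l o Al K x u A b C sg => le_rfl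
  unfold HSt PartQ at HH
  unfold CSt PartQ at H3
  have H4 := PartQ.add HH H3 (Φ := fun _ _ _ p n ez F1 F2 F3 o K x _ _ U g u v B =>
      ∀ Q1 Q2 Q3 : ℕ → Pt → Prop, BSl n p.e p.cP F1 Q1 → BSl n ez p.cP F2 Q2 →
      BSl n p.e p.cP F3 Q3 →
      cosA (p.al U K) o K x (cmp g u v) (fun k _ => F1 k) (fun k _ => F2 k) (fun k _ => F3 k) ≤ B)
    (fun ι _ _ p CD n ez F1 F2 F3 o K x s r U g u v B h => h)
    (fun ι _ _ p CD n ez F1 F2 F3 o K x s r U g u v B h => h)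
    (fun ι _ _ p n ez F1 F2 F3 o K x s r U g u v B1 B2 B ht hs hr ho k1 k2 k3 Q1 Q2 Q3 q1 q2 q3 =>
      by
      obtain ⟨sg, hsg, hc⟩ := cosA_cut3 ho (Num.lam_pos (p := p) ht hs hr)
        (agrN_m p o U K x g u v F1 F2 F3)
        (fun x0 k z y => mA_split p s r U K g F1 Q1 x0 k z y)
        (fun x0 k z y => mb_split p s r U K u F3 Q3 x0 k z y)
      exact hc.trans ((add_le_add (k1 Q1 Q2 Q3 q1 q2 q3) (k2 Q1 Q2 Q3 q1 q2 q3 sg hsg)).trans k3))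
  intro a ha ha1
  obtain ⟨es, hes, H⟩ := H4 a ha ha1
  obtain ⟨k8s, hk8s, H⟩ := H es hes le_rfl
  obtain ⟨k3s, hk3s, H⟩ := H k8s hk8s le_rfl
  obtain ⟨gam, c1, d0, del, hgam, hc1, hd0, hdel, H⟩ := H k3s hk3s le_rfl
  refine ⟨gam, c1, d0, del, hgam, hc1, hd0, hdel, fun c hc hcc d hd hdd Kt e cP L hK he hcP hL => ?_⟩
  obtain ⟨CD, hCD, C, hC, H⟩ := H c hc hcc d hd hdd Kt e cP L hK he hcP hL
  refine ⟨C, hC, ?_⟩
  intro t ht ht1 n ez F1 F2 F3 f1 f3 f2 o ho K hKn x ι _ _ s r U g u v hs hr hcls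
  obtain ⟨Q1, q1⟩ := f1.2.2.2
  obtain ⟨Q2, q2⟩ := f2.2
  obtain ⟨Q3, q3⟩ := f3.2.2.2
  exact H t ht ht1 n ez F1 F2 F3 f1 f3 f2 o ho K hKn x ι s r U g u v hs hr hcls Q1 Q2 Q3 q1 q2 q3

/-- **The class statement from the leaves**: three prices of unsplit parts, three makers, three
prices of functionals. -/
theorem ce1q_of_mk {DI DZ DF : Bun} (H1 : HSt1) (H2 : HSt2) (H3 : HSt3) (MI : MkSt DI)
    (MZ : MkSt DZ) (MF : MkSt DF) (HI : PartF DI NI) (HZ : PartF DZ NZ) (HF : PartF DF NTFf) :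
    CE1q := by
  have h : PartF DF NF := HF.le 1 zero_le_one fun ι _ _ l o _ Al K x u A b C sg => by
    rw [one_mul]
    exact NF_le_TFf l o Al K x u A b C sg
  exact ce1q_of_cst (HSt.of_three H1 H2 H3) (CSt.of_mk MI HI) (CSt.of_mk MZ HZ) (CSt.of_mk MF h)

end

end Vale.Agent.P141.H401
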