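import Vale.Agent.P141.H401.CutSplit
import Vale.Agent.P141.H305.TopM

/-!
# P141, line (A), top: the parts for cut families

`Num` : exponents and constants.  `PartX Φ` : the quantifiers of `H305.PartM` with two more small
exponents `k8` (cut of `S^(1/2) B`), `k3` (caps) and any constant `CD` of the bundle, `Φ .. B` says
that the price is at most `B`.  `PartY Φ` : the same, `CD` chosen by the maker before `t`.

* `PartF D T` : the functional `T` of families, for all families with the property `D` and all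
  signs of the nodes;
* `PartH D` : there are families with the property `D` and the unsplit parts have a price;
* `ce1q_of_fam : PartH D → PartF D NI → PartF D NZ → PartF D NF → CE1q`.
-/

namespace Vale.Agent.P141.H401

open Finset Matrix
open Vale.Agent.P141.PL (Pt iv hs cx)
open Vale.Agent.P141.PL.H315 (Tri)
open Vale.Agent.P141.H48 (US ES cst)
open Vale.Agent.P141.H579 (cosA)
open Vale.Agent.P141.H352 (In p)
open Vale.Agent.P141.H677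
open Vale.Agent.P141.H305 (ClsM kapM CE1q cmp price_mono)

noncomputable section

open scoped Classical

set_option linter.unusedSectionVars false

/-- exponents and constants -/
structure Num where
  a : ℝ
  e0 : ℝ
  k8 : ℝ
  k3 : ℝ
  c : ℝ
  d : ℝ
  Kt : ℝ
  e : ℝ
  cP : ℝ
  L : ℝ
  /-- constant of the bundle -/
  CD : ℝ
  t : ℝ

/-- the gap `t ^ (2 - e0) √s r ^ e0` -/
def Num.lam (p : Num) (s r : ℝ) : ℝ := p.t ^ (2 - p.e0) * √s * r ^ p.e0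

/-- the alive nodes -/
def Num.al (p : Num) (U : Tri) (K : ℕ) (k : ℕ) (z : Pt) : Prop := ¬ cst (p.t ^ (-p.d)) U K k z

/-- the threshold of the stops `t ^ (-d)` -/
def Num.Lm (p : Num) : ℝ := p.t ^ (-p.d)

/-- the level of the first cut, `th = t s^(1/4) (r / t)^k3`; the Gram matrices are cut at `th ^ 2` -/
def Num.th (p : Num) (s r : ℝ) : ℝ := p.t ^ (1 - p.k3) * s ^ (1 / 4 : ℝ) * r ^ p.k3

/-- the level of the second cut, `be = t s^(1/4) (t / r)^k8`; the weighted Gram matrices are cut at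
`be ^ 2` -/
def Num.be (p : Num) (s r : ℝ) : ℝ := p.t ^ (1 + p.k8) * s ^ (1 / 4 : ℝ) * r ^ (-p.k8)

theorem Num.lam_pos {p : Num} {s r : ℝ} (ht : 0 < p.t) (hs : 0 < s) (hr : 1 ≤ r) :
    0 < p.lam s r :=
  mul_pos (mul_pos (Real.rpow_pos_of_pos ht _) (Real.sqrt_pos.2 hs))
    (Real.rpow_pos_of_pos (by linarith) _)

theorem Num.th_pos {p : Num} {s r : ℝ} (ht : 0 < p.t) (hs : 0 < s) (hr : 1 ≤ r) :
    0 < p.th s r :=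
  mul_pos (mul_pos (Real.rpow_pos_of_pos ht _) (Real.rpow_pos_of_pos hs _))
    (Real.rpow_pos_of_pos (by linarith) _)

theorem Num.be_pos {p : Num} {s r : ℝ} (ht : 0 < p.t) (hs : 0 < s) (hr : 1 ≤ r) :
    0 < p.be s r :=
  mul_pos (mul_pos (Real.rpow_pos_of_pos ht _) (Real.rpow_pos_of_pos hs _))
    (Real.rpow_pos_of_pos (by linarith) _)

theorem Num.Lm_ge {p : Num} (ht : 0 < p.t) (ht1 : p.t ≤ 1) (hd : 0 ≤ p.d) : 1 ≤ p.Lm :=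
  Real.one_le_rpow_of_pos_of_le_one_of_nonpos ht ht1 (by linarith)

/-- `th ^ 2 = t ^ (2 - 2 k3) √s r ^ (2 k3)` -/
theorem Num.th_sq {p : Num} {s r : ℝ} (ht : 0 < p.t) (hs : 0 < s) (hr : 1 ≤ r) :
    p.th s r ^ 2 = p.t ^ (2 - 2 * p.k3) * √s * r ^ (2 * p.k3) := by
  have hr0 : 0 < r := by linarith
  unfold Num.th
  rw [mul_pow, mul_pow, ← Real.rpow_natCast (p.t ^ (1 - p.k3)), ← Real.rpow_mul ht.le,
    ← Real.rpow_natCast (s ^ (1 / 4 : ℝ)), ← Real.rpow_mul hs.le, ← Real.rpow_natCast (r ^ p.k3),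
    ← Real.rpow_mul hr0.le, Real.sqrt_eq_rpow]
  have e1 : ∀ y : ℝ, y * ((2 : ℕ) : ℝ) = 2 * y := fun y => by push_cast; ring
  rw [e1, e1, e1]
  have e2 : 2 * (1 - p.k3) = 2 - 2 * p.k3 := by ring
  have e3 : 2 * (1 / 4 : ℝ) = 1 / 2 := by norm_num
  rw [e2, e3]

/-- `be ^ 2 = t ^ (2 + 2 k8) √s r ^ (-2 k8)` -/
theorem Num.be_sq {p : Num} {s r : ℝ} (ht : 0 < p.t) (hs : 0 < s) (hr : 1 ≤ r) :
    p.be s r ^ 2 = p.t ^ (2 + 2 * p.k8) * √s * r ^ (-(2 * p.k8)) := by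
  have hr0 : 0 < r := by linarith
  unfold Num.be
  rw [mul_pow, mul_pow, ← Real.rpow_natCast (p.t ^ (1 + p.k8)), ← Real.rpow_mul ht.le,
    ← Real.rpow_natCast (s ^ (1 / 4 : ℝ)), ← Real.rpow_mul hs.le, ← Real.rpow_natCast (r ^ (-p.k8)),
    ← Real.rpow_mul hr0.le, Real.sqrt_eq_rpow]
  have e1 : ∀ y : ℝ, y * ((2 : ℕ) : ℝ) = 2 * y := fun y => by push_cast; ring
  rw [e1, e1, e1]
  have e2 : 2 * (1 + p.k8) = 2 + 2 * p.k8 := by ring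
  have e3 : 2 * (1 / 4 : ℝ) = 1 / 2 := by norm_num
  have e4 : 2 * -p.k8 = -(2 * p.k8) := by ring
  rw [e2, e3, e4]

/-- statements about class data with a bound -/
abbrev StX : Type 1 :=
  ∀ (ι : Type) [Fintype ι] [DecidableEq ι], Num → ℕ → ℝ → (ℕ → Pt → ℝ) → (ℕ → Pt → ℝ) →
    (ℕ → Pt → ℝ) → ℤ → ℕ → Pt → ℝ → ℝ → Tri → (ℤ → ℤ → ℝ) → (ℤ → ℤ → ι → ℝ) →
    (ℤ → ℤ → ι → ℝ) → ℝ → Prop

/-- **The quantifiers.** -/
def PartX (Φ : StX) : Prop :=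
  ∀ a : ℝ, 0 < a → a ≤ 1 →
  ∃ es : ℝ, 0 < es ∧ ∀ e0 : ℝ, 0 < e0 → e0 ≤ es →
  ∃ k8s : ℝ, 0 < k8s ∧ ∀ k8 : ℝ, 0 < k8 → k8 ≤ k8s →
  ∃ k3s : ℝ, 0 < k3s ∧ ∀ k3 : ℝ, 0 < k3 → k3 ≤ k3s →
  ∃ gam c1 d0 del : ℝ, 0 < gam ∧ 0 < c1 ∧ 0 < d0 ∧ 0 < del ∧ ∀ c : ℝ, 0 ≤ c → c ≤ c1 →
  ∀ d : ℝ, 0 < d → d ≤ d0 →
  ∀ Kt e cP L : ℝ, 0 < Kt → 1 ≤ e → 0 ≤ cP → 1 ≤ L → ∀ CD : ℝ, 1 ≤ CD → ∃ C : ℝ, 0 ≤ C ∧
  ∀ t : ℝ, 0 < t → t ≤ 1 → ∀ (n : ℕ) (ez : ℝ) (F1 F2 F3 : ℕ → Pt → ℝ),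
    US n (Kt * t ^ (1 - c)) e cP F1 → US n (Kt * t ^ (1 - c)) e cP F3 → ES n ez cP F2 →
  ∀ o : ℤ, o = 1 ∨ o = -1 → ∀ K ≤ n, ∀ (x : Pt) (ι : Type) [Fintype ι] [DecidableEq ι]
    (s r : ℝ) (U : Tri) (g : ℤ → ℤ → ℝ) (u v : ℤ → ℤ → ι → ℝ), 0 < s → 1 ≤ r →
    ClsM K x s r (L * t ^ (2 - c) * √s) (kapM L t a s r) U g u v →
    Φ ι ⟨a, e0, k8, k3, c, d, Kt, e, cP, L, CD, t⟩ n ez F1 F2 F3 o K x s r U g u v
      (C * (t ^ (1 + gam) * s ^ (5 / 4 : ℝ) * √ez * 8 ^ K) * r ^ (-del))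

/-- **The quantifiers of the maker**: the constant `CD` of the bundle is chosen. -/
def PartY (Φ : StX) : Prop :=
  ∀ a : ℝ, 0 < a → a ≤ 1 →
  ∃ es : ℝ, 0 < es ∧ ∀ e0 : ℝ, 0 < e0 → e0 ≤ es →
  ∃ k8s : ℝ, 0 < k8s ∧ ∀ k8 : ℝ, 0 < k8 → k8 ≤ k8s →
  ∃ k3s : ℝ, 0 < k3s ∧ ∀ k3 : ℝ, 0 < k3 → k3 ≤ k3s →
  ∃ gam c1 d0 del : ℝ, 0 < gam ∧ 0 < c1 ∧ 0 < d0 ∧ 0 < del ∧ ∀ c : ℝ, 0 ≤ c → c ≤ c1 →
  ∀ d : ℝ, 0 < d → d ≤ d0 →
  ∀ Kt e cP L : ℝ, 0 < Kt → 1 ≤ e → 0 ≤ cP → 1 ≤ L → ∃ CD : ℝ, 1 ≤ CD ∧ ∃ C : ℝ, 0 ≤ C ∧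
  ∀ t : ℝ, 0 < t → t ≤ 1 → ∀ (n : ℕ) (ez : ℝ) (F1 F2 F3 : ℕ → Pt → ℝ),
    US n (Kt * t ^ (1 - c)) e cP F1 → US n (Kt * t ^ (1 - c)) e cP F3 → ES n ez cP F2 →
  ∀ o : ℤ, o = 1 ∨ o = -1 → ∀ K ≤ n, ∀ (x : Pt) (ι : Type) [Fintype ι] [DecidableEq ι]
    (s r : ℝ) (U : Tri) (g : ℤ → ℤ → ℝ) (u v : ℤ → ℤ → ι → ℝ), 0 < s → 1 ≤ r →
    ClsM K x s r (L * t ^ (2 - c) * √s) (kapM L t a s r) U g u v →
    Φ ι ⟨a, e0, k8, k3, c, d, Kt, e, cP, L, CD, t⟩ n ez F1 F2 F3 o K x s r U g u v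
      (C * (t ^ (1 + gam) * s ^ (5 / 4 : ℝ) * √ez * 8 ^ K) * r ^ (-del))

/-- **Two prices together.** -/
theorem PartX.add {Φ1 Φ2 Φ : StX} (H1 : PartX Φ1) (H2 : PartX Φ2)
    (h : ∀ (ι : Type) [Fintype ι] [DecidableEq ι] (p : Num) (n : ℕ) (ez : ℝ)
      (F1 F2 F3 : ℕ → Pt → ℝ) (o : ℤ) (K : ℕ) (x : Pt) (s r : ℝ) (U : Tri) (g : ℤ → ℤ → ℝ)
      (u v : ℤ → ℤ → ι → ℝ) (B1 B2 B : ℝ), 0 < p.t → 0 < s → 1 ≤ r → o = 1 ∨ o = -1 →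
      Φ1 ι p n ez F1 F2 F3 o K x s r U g u v B1 → Φ2 ι p n ez F1 F2 F3 o K x s r U g u v B2 →
      B1 + B2 ≤ B → Φ ι p n ez F1 F2 F3 o K x s r U g u v B) : PartX Φ := by
  intro a ha ha1
  obtain ⟨es1, hes1, H1⟩ := H1 a ha ha1
  obtain ⟨es2, hes2, H2⟩ := H2 a ha ha1
  refine ⟨min es1 es2, lt_min hes1 hes2, fun e0 he0 he0' => ?_⟩
  obtain ⟨k81, hk81, H1⟩ := H1 e0 he0 (he0'.trans (min_le_left _ _))
  obtain ⟨k82, hk82, H2⟩ := H2 e0 he0 (he0'.trans (min_le_right _ _))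
  refine ⟨min k81 k82, lt_min hk81 hk82, fun k8 hk8 hk8' => ?_⟩
  obtain ⟨k31, hk31, H1⟩ := H1 k8 hk8 (hk8'.trans (min_le_left _ _))
  obtain ⟨k32, hk32, H2⟩ := H2 k8 hk8 (hk8'.trans (min_le_right _ _))
  refine ⟨min k31 k32, lt_min hk31 hk32, fun k3 hk3 hk3' => ?_⟩
  obtain ⟨g1, c1, d1, l1, hg1, hc1, hd1, hl1, H1⟩ := H1 k3 hk3 (hk3'.trans (min_le_left _ _))
  obtain ⟨g2, c2, d2, l2, hg2, hc2, hd2, hl2, H2⟩ := H2 k3 hk3 (hk3'.trans (min_le_right _ _))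
  refine ⟨min g1 g2, min c1 c2, min d1 d2, min l1 l2, lt_min hg1 hg2, lt_min hc1 hc2,
    lt_min hd1 hd2, lt_min hl1 hl2, fun c hc hcc d hd hdd Kt e cP L hK he hcP hL CD hCD => ?_⟩
  obtain ⟨C1, hC1, H1⟩ := H1 c hc (hcc.trans (min_le_left _ _)) d hd (hdd.trans (min_le_left _ _))
    Kt e cP L hK he hcP hL CD hCD
  obtain ⟨C2, hC2, H2⟩ := H2 c hc (hcc.trans (min_le_right _ _)) d hd
    (hdd.trans (min_le_right _ _)) Kt e cP L hK he hcP hL CD hCD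
  refine ⟨C1 + C2, by positivity, ?_⟩
  intro t ht ht1 n ez F1 F2 F3 h1 h3 h2 o ho K hKn x ι _ _ s r U g u v hs hr hcls
  have k1 := H1 t ht ht1 n ez F1 F2 F3 h1 h3 h2 o ho K hKn x ι s r U g u v hs hr hcls
  have k2 := H2 t ht ht1 n ez F1 F2 F3 h1 h3 h2 o ho K hKn x ι s r U g u v hs hr hcls
  have m1 := price_mono ht ht1 hr hs.le (Real.sqrt_nonneg ez) hC1 (min_le_left g1 g2)
    (min_le_left l1 l2) K
  have m2 := price_mono ht ht1 hr hs.le (Real.sqrt_nonneg ez) hC2 (min_le_right g1 g2)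
    (min_le_right l1 l2) K
  refine h ι _ n ez F1 F2 F3 o K x s r U g u v _ _ _ ht hs hr ho k1 k2
    ((add_le_add m1 m2).trans (le_of_eq ?_))
  ring

theorem price_nonneg {t s r W C : ℝ} (ht : 0 < t) (hs : 0 < s) (hr : 1 ≤ r) (hC : 0 ≤ C)
    (g l : ℝ) (K : ℕ) :
    0 ≤ C * (t ^ (1 + g) * s ^ (5 / 4 : ℝ) * √W * 8 ^ K) * r ^ (-l) := by
  have h1 : 0 ≤ t ^ (1 + g) := (Real.rpow_pos_of_pos ht _).le
  have h2 : 0 ≤ s ^ (5 / 4 : ℝ) := (Real.rpow_pos_of_pos hs _).le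
  have h3 : 0 ≤ r ^ (-l) := (Real.rpow_pos_of_pos (by linarith) _).le
  have h4 : 0 ≤ √W := Real.sqrt_nonneg _
  positivity

/-- **A maker and a price together.** -/
theorem PartY.addX {Φ1 Φ2 Φ : StX} (H1 : PartY Φ1) (H2 : PartX Φ2)
    (h : ∀ (ι : Type) [Fintype ι] [DecidableEq ι] (p : Num) (n : ℕ) (ez : ℝ)
      (F1 F2 F3 : ℕ → Pt → ℝ) (o : ℤ) (K : ℕ) (x : Pt) (s r : ℝ) (U : Tri) (g : ℤ → ℤ → ℝ)
      (u v : ℤ → ℤ → ι → ℝ) (B1 B2 B : ℝ), 0 < p.t → 0 < s → 1 ≤ r → o = 1 ∨ o = -1 →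
      0 ≤ B1 → 0 ≤ B2 →
      Φ1 ι p n ez F1 F2 F3 o K x s r U g u v B1 → Φ2 ι p n ez F1 F2 F3 o K x s r U g u v B2 →
      B1 + B2 ≤ B → Φ ι p n ez F1 F2 F3 o K x s r U g u v B) : PartY Φ := by
  intro a ha ha1
  obtain ⟨es1, hes1, H1⟩ := H1 a ha ha1
  obtain ⟨es2, hes2, H2⟩ := H2 a ha ha1
  refine ⟨min es1 es2, lt_min hes1 hes2, fun e0 he0 he0' => ?_⟩
  obtain ⟨k81, hk81, H1⟩ := H1 e0 he0 (he0'.trans (min_le_left _ _))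
  obtain ⟨k82, hk82, H2⟩ := H2 e0 he0 (he0'.trans (min_le_right _ _))
  refine ⟨min k81 k82, lt_min hk81 hk82, fun k8 hk8 hk8' => ?_⟩
  obtain ⟨k31, hk31, H1⟩ := H1 k8 hk8 (hk8'.trans (min_le_left _ _))
  obtain ⟨k32, hk32, H2⟩ := H2 k8 hk8 (hk8'.trans (min_le_right _ _))
  refine ⟨min k31 k32, lt_min hk31 hk32, fun k3 hk3 hk3' => ?_⟩
  obtain ⟨g1, c1, d1, l1, hg1, hc1, hd1, hl1, H1⟩ := H1 k3 hk3 (hk3'.trans (min_le_left _ _))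
  obtain ⟨g2, c2, d2, l2, hg2, hc2, hd2, hl2, H2⟩ := H2 k3 hk3 (hk3'.trans (min_le_right _ _))
  refine ⟨min g1 g2, min c1 c2, min d1 d2, min l1 l2, lt_min hg1 hg2, lt_min hc1 hc2,
    lt_min hd1 hd2, lt_min hl1 hl2, fun c hc hcc d hd hdd Kt e cP L hK he hcP hL => ?_⟩
  obtain ⟨CD, hCD, C1, hC1, H1⟩ := H1 c hc (hcc.trans (min_le_left _ _)) d hd
    (hdd.trans (min_le_left _ _)) Kt e cP L hK he hcP hL
  obtain ⟨C2, hC2, H2⟩ := H2 c hc (hcc.trans (min_le_right _ _)) d hd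
    (hdd.trans (min_le_right _ _)) Kt e cP L hK he hcP hL CD hCD
  refine ⟨CD, hCD, C1 + C2, by positivity, ?_⟩
  intro t ht ht1 n ez F1 F2 F3 h1 h3 h2 o ho K hKn x ι _ _ s r U g u v hs hr hcls
  have k1 := H1 t ht ht1 n ez F1 F2 F3 h1 h3 h2 o ho K hKn x ι s r U g u v hs hr hcls
  have k2 := H2 t ht ht1 n ez F1 F2 F3 h1 h3 h2 o ho K hKn x ι s r U g u v hs hr hcls
  have m1 := price_mono ht ht1 hr hs.le (Real.sqrt_nonneg ez) hC1 (min_le_left g1 g2)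
    (min_le_left l1 l2) K
  have m2 := price_mono ht ht1 hr hs.le (Real.sqrt_nonneg ez) hC2 (min_le_right g1 g2)
    (min_le_right l1 l2) K
  have z1 : 0 ≤ C1 * (t ^ (1 + g1) * s ^ (5 / 4 : ℝ) * √ez * 8 ^ K) * r ^ (-l1) :=
    price_nonneg ht hs hr hC1 g1 l1 K
  have z2 : 0 ≤ C2 * (t ^ (1 + g2) * s ^ (5 / 4 : ℝ) * √ez * 8 ^ K) * r ^ (-l2) :=
    price_nonneg ht hs hr hC2 g2 l2 K
  refine h ι _ n ez F1 F2 F3 o K x s r U g u v _ _ _ ht hs hr ho z1 z2 k1 k2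
    ((add_le_add m1 m2).trans (le_of_eq ?_))
  ring

/-- **Two makers together**: the larger constant. -/
theorem PartY.add {Φ1 Φ2 Φ : StX} (H1 : PartY Φ1) (H2 : PartY Φ2)
    (h : ∀ (ι : Type) [Fintype ι] [DecidableEq ι] (p : Num) (CD1 CD2 : ℝ) (n : ℕ) (ez : ℝ)
      (F1 F2 F3 : ℕ → Pt → ℝ) (o : ℤ) (K : ℕ) (x : Pt) (s r : ℝ) (U : Tri) (g : ℤ → ℤ → ℝ)
      (u v : ℤ → ℤ → ι → ℝ) (B1 B2 B : ℝ), 0 < p.t → 0 < s → 1 ≤ r → o = 1 ∨ o = -1 →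
      1 ≤ CD1 → CD1 ≤ p.CD → 1 ≤ CD2 → CD2 ≤ p.CD → 0 ≤ B1 → 0 ≤ B2 →
      Φ1 ι { p with CD := CD1 } n ez F1 F2 F3 o K x s r U g u v B1 →
      Φ2 ι { p with CD := CD2 } n ez F1 F2 F3 o K x s r U g u v B2 →
      B1 + B2 ≤ B → Φ ι p n ez F1 F2 F3 o K x s r U g u v B) : PartY Φ := by
  intro a ha ha1
  obtain ⟨es1, hes1, H1⟩ := H1 a ha ha1
  obtain ⟨es2, hes2, H2⟩ := H2 a ha ha1
  refine ⟨min es1 es2, lt_min hes1 hes2, fun e0 he0 he0' => ?_⟩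
  obtain ⟨k81, hk81, H1⟩ := H1 e0 he0 (he0'.trans (min_le_left _ _))
  obtain ⟨k82, hk82, H2⟩ := H2 e0 he0 (he0'.trans (min_le_right _ _))
  refine ⟨min k81 k82, lt_min hk81 hk82, fun k8 hk8 hk8' => ?_⟩
  obtain ⟨k31, hk31, H1⟩ := H1 k8 hk8 (hk8'.trans (min_le_left _ _))
  obtain ⟨k32, hk32, H2⟩ := H2 k8 hk8 (hk8'.trans (min_le_right _ _))
  refine ⟨min k31 k32, lt_min hk31 hk32, fun k3 hk3 hk3' => ?_⟩
  obtain ⟨g1, c1, d1, l1, hg1, hc1, hd1, hl1, H1⟩ := H1 k3 hk3 (hk3'.trans (min_le_left _ _))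
  obtain ⟨g2, c2, d2, l2, hg2, hc2, hd2, hl2, H2⟩ := H2 k3 hk3 (hk3'.trans (min_le_right _ _))
  refine ⟨min g1 g2, min c1 c2, min d1 d2, min l1 l2, lt_min hg1 hg2, lt_min hc1 hc2,
    lt_min hd1 hd2, lt_min hl1 hl2, fun c hc hcc d hd hdd Kt e cP L hK he hcP hL => ?_⟩
  obtain ⟨CD1, hCD1, C1, hC1, H1⟩ := H1 c hc (hcc.trans (min_le_left _ _)) d hd
    (hdd.trans (min_le_left _ _)) Kt e cP L hK he hcP hL
  obtain ⟨CD2, hCD2, C2, hC2, H2⟩ := H2 c hc (hcc.trans (min_le_right _ _)) d hd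
    (hdd.trans (min_le_right _ _)) Kt e cP L hK he hcP hL
  refine ⟨max CD1 CD2, le_max_of_le_left hCD1, C1 + C2, by positivity, ?_⟩
  intro t ht ht1 n ez F1 F2 F3 h1 h3 h2 o ho K hKn x ι _ _ s r U g u v hs hr hcls
  have k1 := H1 t ht ht1 n ez F1 F2 F3 h1 h3 h2 o ho K hKn x ι s r U g u v hs hr hcls
  have k2 := H2 t ht ht1 n ez F1 F2 F3 h1 h3 h2 o ho K hKn x ι s r U g u v hs hr hcls
  have m1 := price_mono ht ht1 hr hs.le (Real.sqrt_nonneg ez) hC1 (min_le_left g1 g2)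
    (min_le_left l1 l2) K
  have m2 := price_mono ht ht1 hr hs.le (Real.sqrt_nonneg ez) hC2 (min_le_right g1 g2)
    (min_le_right l1 l2) K
  have z1 : 0 ≤ C1 * (t ^ (1 + g1) * s ^ (5 / 4 : ℝ) * √ez * 8 ^ K) * r ^ (-l1) :=
    price_nonneg ht hs hr hC1 g1 l1 K
  have z2 : 0 ≤ C2 * (t ^ (1 + g2) * s ^ (5 / 4 : ℝ) * √ez * 8 ^ K) * r ^ (-l2) :=
    price_nonneg ht hs hr hC2 g2 l2 K
  refine h ι ⟨a, e0, k8, k3, c, d, Kt, e, cP, L, max CD1 CD2, t⟩ CD1 CD2 n ez F1 F2 F3 o K x s r U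
    g u v _ _ _ ht hs hr ho hCD1 (le_max_left _ _) hCD2 (le_max_right _ _) z1 z2 k1 k2
    ((add_le_add m1 m2).trans (le_of_eq ?_))
  ring

/-- a statement for every constant -/
theorem PartX.toY {Φ : StX} (H : PartX Φ) : PartY Φ := by
  intro a ha ha1
  obtain ⟨es, hes, H⟩ := H a ha ha1
  refine ⟨es, hes, fun e0 he0 he0' => ?_⟩
  obtain ⟨k8s, hk8s, H⟩ := H e0 he0 he0'
  refine ⟨k8s, hk8s, fun k8 hk8 hk8' => ?_⟩
  obtain ⟨k3s, hk3s, H⟩ := H k8 hk8 hk8'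
  refine ⟨k3s, hk3s, fun k3 hk3 hk3' => ?_⟩
  obtain ⟨gam, c1, d0, del, hgam, hc1, hd0, hdel, H⟩ := H k3 hk3 hk3'
  refine ⟨gam, c1, d0, del, hgam, hc1, hd0, hdel, fun c hc hcc d hd hdd Kt e cP L hK he hcP hL => ?_⟩
  exact ⟨1, le_rfl, H c hc hcc d hd hdd Kt e cP L hK he hcP hL 1 le_rfl⟩

/-- **Every exponent chosen**: the class statement. -/
theorem ce1q_of_partY (H : PartY fun _ι _ _ p _n _ez F1 F2 F3 o K x _s _r U g u v B =>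
    cosA (p.al U K) o K x (cmp g u v) (fun k _ => F1 k) (fun k _ => F2 k) (fun k _ => F3 k) ≤ B) :
    CE1q := by
  intro a ha ha1
  obtain ⟨es, hes, H⟩ := H a ha ha1
  obtain ⟨k8s, hk8s, H⟩ := H es hes le_rfl
  obtain ⟨k3s, hk3s, H⟩ := H k8s hk8s le_rfl
  obtain ⟨gam, c1, d0, del, hgam, hc1, hd0, hdel, H⟩ := H k3s hk3s le_rfl
  refine ⟨gam, c1, d0, del, hgam, hc1, hd0, hdel, fun c hc hcc d hd hdd Kt e cP L hK he hcP hL => ?_⟩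
  obtain ⟨CD, hCD, C, hC, H⟩ := H c hc hcc d hd hdd Kt e cP L hK he hcP hL
  refine ⟨C, hC, ?_⟩
  intro t ht ht1 n ez F1 F2 F3 h1 h3 h2 o ho K hKn x ι _ _ s r U g u v hs hr hcls
  exact H t ht ht1 n ez F1 F2 F3 h1 h3 h2 o ho K hKn x ι s r U g u v hs hr hcls

/-! ### Families -/

/-- functionals of families `A' b' C` and of the signs of the nodes; gap `l`, data `u` -/
abbrev FunF : Type 1 :=
  ∀ (ι : Type) [Fintype ι] [DecidableEq ι], ℝ → ℤ → (ℕ → Pt → Prop) → ℕ → Pt →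
    (ℤ → ℤ → ι → ℝ) → (ℤ → ℕ → ℤ → ℤ → ℝ) → (ℤ → ℕ → ℤ → ℤ → ι → ℝ) →
    (ℤ → ℕ → ℤ → ℤ → ι → ℝ) → (ℕ → Pt → ℝ) → ℝ

/-- increasing part -/
def NI : FunF := fun _ _ _ l o Al K x u A b C _ =>
  NS o Al K x fun x0 k m => |ndI l (KT l u) (A x0 k) (b x0 k) (C x0 k) k m|

/-- gap part -/
def NZ : FunF := fun _ _ _ l o Al K x u A b C _ =>
  NS o Al K x fun x0 k m => |ndZ l (KT l u) (A x0 k) (b x0 k) (C x0 k) k m|

/-- flow part: the Abel sum, signs of the nodes -/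
def NF : FunF := fun _ _ _ l o Al K x u A b C sg =>
  |∑ t ∈ rt (PL.cx K x), ∑ x0 ∈ iv K t, ∑ j ∈ range K,
    In K (PL.cx K x) (p (j + 1) (cP o x0 (j + 1))) (fun y =>
      GA (A x0) (b x0) (C x0) (RA K l (KT l u) (cP o x0) (thA (cP o x0)
        (sN Al o K (PL.cx K x) x0) fun k m => sg k (rv m) * hs k x0)) j (j + 1) y -
      GA (A x0) (b x0) (C x0) (RA K l (KT l u) (cP o x0) (thA (cP o x0)
        (sN Al o K (PL.cx K x) x0) fun k m => sg k (rv m) * hs k x0)) (j + 1) (j + 1) y)|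

/-- properties of cut families -/
abbrev Bun : Type 1 :=
  ∀ (ι : Type) [Fintype ι] [DecidableEq ι], Num → ℕ → ℝ → (ℕ → Pt → ℝ) → (ℕ → Pt → ℝ) →
    (ℕ → Pt → ℝ) → ℤ → ℕ → Pt → ℝ → ℝ → Tri → (ℤ → ℤ → ℝ) → (ℤ → ℤ → ι → ℝ) →
    (ℤ → ℤ → ι → ℝ) → (ℤ → ℕ → ℤ → ℤ → ℝ) → (ℤ → ℕ → ℤ → ℤ → ι → ℝ) →
    (ℤ → ℕ → ℤ → ℤ → ι → ℝ) → Prop

/-- **The price of a functional of the families with the property `D`.** -/
def PartF (D : Bun) (T : FunF) : Prop :=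
  PartX fun ι _ _ p n ez F1 F2 F3 o K x s r U g u v B =>
    ∀ (A : ℤ → ℕ → ℤ → ℤ → ℝ) (b C : ℤ → ℕ → ℤ → ℤ → ι → ℝ),
      D ι p n ez F1 F2 F3 o K x s r U g u v A b C →
      ∀ sg : ℕ → Pt → ℝ, (∀ k m, |sg k m| ≤ 1) →
        T ι (p.lam s r) o (p.al U K) K x u A b C sg ≤ B

/-- **The cut**: families which agree with the data on the alive nodes, their low parts with the
property `D`, and the price of the unsplit parts. -/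
def PartH (D : Bun) : Prop :=
  PartY fun ι _ _ p n ez F1 F2 F3 o K x s r U g u v B =>
    ∃ (A A' A'' : ℤ → ℕ → ℤ → ℤ → ℝ) (b b' b'' b₃ C : ℤ → ℕ → ℤ → ℤ → ι → ℝ),
      AgrN o (p.al U K) K x (fun q => g q.1 q.2) u v F1 F2 F3 A b C ∧
      (∀ x0 k z y, A x0 k z y = A' x0 k z y + A'' x0 k z y) ∧
      (∀ x0 k z y, b x0 k z y = b' x0 k z y + (b'' x0 k z y + b₃ x0 k z y)) ∧
      D ι p n ez F1 F2 F3 o K x s r U g u v A' b' C ∧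
      NS o (p.al U K) K x (fun x0 k m => |nf3 (A'' x0 k) (b x0 k) (C x0 k) k m|) +
        (NS o (p.al U K) K x (fun x0 k m => |nf3 (A' x0 k) (b'' x0 k) (C x0 k) k m|) +
        NS o (p.al U K) K x (fun x0 k m => |nf3 (A' x0 k) (b₃ x0 k) (C x0 k) k m|)) ≤ B

/-- two functionals of families -/
theorem PartF.add {D : Bun} {T1 T2 T : FunF} (H1 : PartF D T1) (H2 : PartF D T2)
    (h : ∀ (ι : Type) [Fintype ι] [DecidableEq ι] (l : ℝ) (o : ℤ) (Al : ℕ → Pt → Prop) (K : ℕ)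
      (x : Pt) (u : ℤ → ℤ → ι → ℝ) (A : ℤ → ℕ → ℤ → ℤ → ℝ) (b C : ℤ → ℕ → ℤ → ℤ → ι → ℝ)
      (sg : ℕ → Pt → ℝ), T ι l o Al K x u A b C sg ≤ T1 ι l o Al K x u A b C sg +
        T2 ι l o Al K x u A b C sg) : PartF D T := by
  refine PartX.add H1 H2 ?_
  intro ι _ _ p n ez F1 F2 F3 o K x s r U g u v B1 B2 B _ _ _ _ h1 h2 h3 A b C hD sg hsg
  exact (h ι _ o _ K x u A b C sg).trans ((add_le_add (h1 A b C hD sg hsg)
    (h2 A b C hD sg hsg)).trans h3)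

/-- **The class statement from the cut and the three parts of the cut families.** -/
theorem ce1q_of_fam {D : Bun} (HH : PartH D) (HI : PartF D NI) (HZ : PartF D NZ)
    (HF : PartF D NF) : CE1q := by
  have H3 := (HI.add HZ (T := fun ι _ _ l o Al K x u A b C sg =>
    NI ι l o Al K x u A b C sg + NZ ι l o Al K x u A b C sg)
    fun ι _ _ l o Al K x u A b C sg => le_rfl).add HF (T := fun ι _ _ l o Al K x u A b C sg =>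
    NI ι l o Al K x u A b C sg + NZ ι l o Al K x u A b C sg + NF ι l o Al K x u A b C sg)
    fun ι _ _ l o Al K x u A b C sg => le_rfl
  refine ce1q_of_partY (PartY.addX HH H3 ?_)
  intro ι _ _ p n ez F1 F2 F3 o K x s r U g u v B1 B2 B ht hs hr ho _ _ h1 h2 h3
  obtain ⟨A, A', A'', b, b', b'', b₃, C, hagr, hA, hb, hD, hH⟩ := h1
  have hl : 0 < p.lam s r :=
    mul_pos (mul_pos (Real.rpow_pos_of_pos ht _) (Real.sqrt_pos.2 hs))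
      (Real.rpow_pos_of_pos (by linarith) _)
  obtain ⟨sg, hsg, hc⟩ := cosA_cut3 ho hl hagr hA hb
  exact hc.trans ((add_le_add hH (h2 A' b' C hD sg hsg)).trans h3)

end

end Vale.Agent.P141.H401
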