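import Vale.Agent.P141.H401.CutV
import Vale.Agent.P141.H444.FibD
import Vale.Agent.P141.H677.FDb

/-!
# P141, line (A), top: the cut of `v` at the dense fibres

* `DvS : Sel` : 444's dense fibres with the level `lam1 = t ^ (-8) √s r ^ 8`;
* `FibP` : the fibres of `v` on the alive squares; `fib_DvS` : class data with `lo DvS` have it;
* `col_DvS`, `hi_le`, `hi_zero` : the columns of the set, for the price of `hi DvS`;
* `MkF D` : makers which may use `FibP`; `ce1q_of_MkF` : the class statement.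
-/

namespace Vale.Agent.P141.H401

open Finset Matrix
open Vale.Agent.P141.PL (Pt iv hs ix cx mem_iv)
open Vale.Agent.P141.PL.H315 (Tri avg)
open Vale.Agent.P141.H48 (US ES BSl sst cst)
open Vale.Agent.P141.H579 (cosA)
open Vale.Agent.P141.H677
open Vale.Agent.P141.H677.Sk (lam1)
open Vale.Agent.P141.H305 (ClsM kapM CE1q cmp price_mono)

noncomputable section

open scoped Classical

set_option linter.unusedSectionVars false

/-- **The dense fibres of `v`**, level `lam1 = t ^ (-8) √s r ^ 8`. -/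
def DvS : Sel := fun _ι _ _ p K _x s r U v z y => H444.FD.Dv p.Lm U.2.1 K (lam1 p s r) v z y

theorem DvS_CD (ι : Type) [Fintype ι] [DecidableEq ι] (p : Num) (CD : ℝ) (K : ℕ) (x : Pt)
    (s r : ℝ) (U : Tri) (v : ℤ → ℤ → ι → ℝ) :
    DvS ι { p with CD := CD } K x s r U v = DvS ι p K x s r U v := rfl

variable {ι : Type} [Fintype ι] [DecidableEq ι]

/-- the fibres of `v` on the alive squares are at most `lam1` -/
def FibP (p : Num) (K : ℕ) (x : Pt) (s r : ℝ) (U : Tri) (v : ℤ → ℤ → ι → ℝ) : Prop :=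
  ∀ k ≤ K, ∀ x1 ∈ iv K (ix K x.1), ∀ x3 ∈ iv K (ix K x.2.2), ¬ sst p.Lm U.2.1 K k x1 x3 →
    ∑ y ∈ iv k (ix k x3), v x1 y ⬝ᵥ v x1 y ≤ lam1 p s r * 2 ^ k

theorem lam1_pos {p : Num} {s r : ℝ} (ht : 0 < p.t) (hs : 0 < s) (hr : 1 ≤ r) :
    0 < lam1 p s r :=
  mul_pos (mul_pos (Real.rpow_pos_of_pos ht _) (Real.sqrt_pos.2 hs))
    (Real.rpow_pos_of_pos (by linarith) _)

theorem lam1_ge {p : Num} {s r : ℝ} (ht : 0 < p.t) (ht1 : p.t ≤ 1) (hd : p.d ≤ 8) (hs : 0 < s)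
    (hr : 1 ≤ r) : min 1 (p.Lm * s) ≤ lam1 p s r := by
  have h1 : 1 ≤ p.t ^ (-8 : ℝ) :=
    Real.one_le_rpow_of_pos_of_le_one_of_nonpos ht ht1 (by norm_num)
  have h2 : 1 ≤ r ^ (8 : ℝ) := Real.one_le_rpow hr (by norm_num)
  have h3 : p.t ^ (-8 : ℝ) * √s ≤ lam1 p s r := by
    unfold lam1
    exact le_mul_of_one_le_right (by positivity) h2
  rcases le_total s 1 with hs1 | hs1
  · have h4 : s ≤ √s := by
      rw [Real.le_sqrt hs.le hs.le]
      nlinarith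
    have h5 : p.Lm ≤ p.t ^ (-8 : ℝ) :=
      Real.rpow_le_rpow_of_exponent_ge ht ht1 (by linarith)
    refine (min_le_right _ _).trans (le_trans ?_ h3)
    have h6 : 0 ≤ p.t ^ (-8 : ℝ) := by linarith
    exact mul_le_mul h5 h4 hs.le h6
  · have h4 : 1 ≤ √s := by
      rw [Real.one_le_sqrt]
      exact hs1
    refine (min_le_left _ _).trans (le_trans ?_ h3)
    nlinarith

theorem lo_DvS (D : ℤ → ℤ → Prop) (v : ℤ → ℤ → ι → ℝ) (z y : ℤ) :
    lo D v z y ⬝ᵥ lo D v z y = if D z y then 0 else v z y ⬝ᵥ v z y := by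
  unfold lo
  split_ifs
  · exact zero_dotProduct _
  · rfl

/-- **The fibres of `v` off the set.** -/
theorem fib_DvS {p : Num} {K : ℕ} {x : Pt} {s r P κ : ℝ} {U : Tri} {g : ℤ → ℤ → ℝ}
    {u v : ℤ → ℤ → ι → ℝ} (ht : 0 < p.t) (ht1 : p.t ≤ 1) (hd0 : 0 ≤ p.d) (hd : p.d ≤ 8)
    (hs : 0 < s) (hr : 1 ≤ r) (h : ClsM K x s r P κ U g u v) :
    FibP p K x s r U (lo (DvS ι p K x s r U v) v) := by
  intro k hk x1 hx1 x3 hx3 hst
  have hL : 0 ≤ p.Lm := by linarith [Num.Lm_ge ht ht1 hd0]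
  have h1 := H444.FD.fib (K := K) (P := sst p.Lm U.2.1 K) (lam := lam1 p s r)
    (M := min 1 (p.Lm * s)) (f := fun z y => v z y ⬝ᵥ v z y) (H444.FD.stP_sst p.Lm U.2.1 K)
    (R := ix K x.1) (S := ix K x.2.2) (fun z y => H444.FD.dot_nn _) ?_
    (lam1_ge ht ht1 hd hs hr) (lam1_pos ht hs hr).le k hk x1 hx1 x3 hx3 hst
  · refine (sum_congr rfl fun y _ => ?_).trans_le h1
    exact lo_DvS _ v x1 y
  · intro z hz y hy h0
    refine le_min ?_ ?_
    · have h2 := h.U_v z hz y hy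
      have h3 := h.v_le z hz y hy
      nlinarith
    · have h2 := H444.FD.mass_sst (R := ix K x.1) (S := ix K x.2.2) (s := s) hL
        (fun z hz y hy => h.v_le z hz y hy) ?_ (Nat.zero_le K) hz hy h0
      · have e1 : ∀ c : ℤ, iv 0 (ix 0 c) = {c} := by
          intro c
          ext w
          rw [mem_iv, mem_singleton]
          unfold PL.ix
          simp
        rw [e1, e1, sum_singleton, sum_singleton, pow_zero, mul_one] at h2
        exact h2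
      · intro z hz y hy
        refine (le_of_eq ?_).trans h.U_v2
        exact H48.A2_congr' (k := K) U.2.1 (mem_iv.1 hz) (mem_iv.1 hy)

/-- **The columns of the set** on the alive squares, `del = 4 t ^ (-d) s / lam1`. -/
theorem col_DvS {p : Num} {K : ℕ} {x : Pt} {s r P κ : ℝ} {U : Tri} {g : ℤ → ℤ → ℝ}
    {u v : ℤ → ℤ → ι → ℝ} (ht : 0 < p.t) (ht1 : p.t ≤ 1) (hd0 : 0 ≤ p.d)
    (hs : 0 < s) (hr : 1 ≤ r) (h : ClsM K x s r P κ U g u v) :
    ∀ j ≤ K, ∀ z ∈ iv K (ix K x.1), ∀ y ∈ iv K (ix K x.2.2), ¬ sst p.Lm U.2.1 K j z y →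
      ∑ z' ∈ iv j (ix j z), (if DvS ι p K x s r U v z' y then (1 : ℝ) else 0) ≤
        4 * (p.Lm * s) / lam1 p s r * 2 ^ j := by
  have hL : 0 ≤ p.Lm := by linarith [Num.Lm_ge ht ht1 hd0]
  refine H444.FD.col_sst hL hs.le (lam1_pos ht hs hr) (fun z hz y hy => h.v_le z hz y hy) ?_
  intro z hz y hy
  refine (le_of_eq ?_).trans h.U_v2
  exact H48.A2_congr' (k := K) U.2.1 (mem_iv.1 hz) (mem_iv.1 hy)

/-- `4 t ^ (-d) s / lam1 = 4 t ^ (8 - d) √s r ^ (-8)` -/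
theorem col_num {p : Num} {s r : ℝ} (ht : 0 < p.t) (hs : 0 < s) (hr : 1 ≤ r) :
    4 * (p.Lm * s) / lam1 p s r = 4 * (p.t ^ (8 - p.d) * √s * r ^ (-8 : ℝ)) := by
  have hr0 : 0 < r := by linarith
  have h0 := lam1_pos (p := p) ht hs hr
  rw [div_eq_iff h0.ne']
  unfold lam1 Num.Lm
  have e1 : p.t ^ (8 - p.d) * p.t ^ (-8 : ℝ) = p.t ^ (-p.d) := by
    rw [← Real.rpow_add ht]
    congr 1
    ring
  have e2 : r ^ (-8 : ℝ) * r ^ (8 : ℝ) = 1 := by
    rw [← Real.rpow_add hr0]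
    norm_num
  have e3 : √s * √s = s := Real.mul_self_sqrt hs.le
  calc 4 * (p.t ^ (-p.d) * s) = 4 * ((p.t ^ (8 - p.d) * p.t ^ (-8 : ℝ)) * (√s * √s) *
        (r ^ (-8 : ℝ) * r ^ (8 : ℝ))) := by rw [e1, e2, e3, mul_one]
    _ = _ := by ring

/-- the part on the set is below `v` -/
theorem hi_le (D : ℤ → ℤ → Prop) (v : ℤ → ℤ → ι → ℝ) (z y : ℤ) :
    hi D v z y ⬝ᵥ hi D v z y ≤ v z y ⬝ᵥ v z y := by
  unfold hi
  split_ifs
  · exact le_rfl
  · rw [zero_dotProduct]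
    exact sum_nonneg fun i _ => mul_self_nonneg _

/-- the part on the set is zero off the set -/
theorem hi_zero (D : ℤ → ℤ → Prop) (v : ℤ → ℤ → ι → ℝ) (z y : ℤ) (h : ¬ D z y) :
    hi D v z y = 0 := if_neg h

/-! ### Makers which may use the fibres -/

/-- **Maker of the bundle `D` for class data with small fibres** -/
def MkF (D : Bun) : Prop :=
  PartQ fun ι _ _ p n ez F1 F2 F3 o K x s r U g u v Q1 _Q2 Q3 _B =>
    FibP p K x s r U v → D ι p n ez F1 F2 F3 o K x s r U g u v (cA p s r U K g F1 Q1)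
      (cb p s r U K u F3 Q3) (mC p U K v F2)

theorem MkSt.toF {D : Bun} (H : MkSt D) : MkF D := by
  unfold MkSt PartQ at H
  unfold MkF PartQ
  intro a ha ha1
  obtain ⟨es, hes, H⟩ := H a ha ha1
  refine ⟨es, hes, fun e0 he0 he0' => ?_⟩
  obtain ⟨k8s, hk8s, H⟩ := H e0 he0 he0'
  refine ⟨k8s, hk8s, fun k8 hk8 hk8' => ?_⟩
  obtain ⟨k3s, hk3s, H⟩ := H k8 hk8 hk8'
  refine ⟨k3s, hk3s, fun k3 hk3 hk3' => ?_⟩
  obtain ⟨gam, c1, d0, del, hgam, hc1, hd0, hdel, H⟩ := H k3 hk3 hk3'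
  refine ⟨gam, c1, d0, del, hgam, hc1, hd0, hdel, fun c hc hcc d hd hdd Kt e cP L hK he hcP hL => ?_⟩
  obtain ⟨CD, hCD, C, hC, H⟩ := H c hc hcc d hd hdd Kt e cP L hK he hcP hL
  refine ⟨CD, hCD, C, hC, ?_⟩
  intro t ht ht1 n ez F1 F2 F3 h1 h3 h2 o ho K hKn x ι _ _ s r U g u v hs hr hcls Q1 Q2 Q3 q1 q2 q3 _
  exact H t ht ht1 n ez F1 F2 F3 h1 h3 h2 o ho K hKn x ι s r U g u v hs hr hcls Q1 Q2 Q3 q1 q2 q3

/-- **Makers with small fibres serve the data with the dense fibres cut off.** -/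
theorem MkF.toV {D : Bun} (H : MkF D) : MkStV DvS D := by
  unfold MkF PartQ at H
  unfold MkStV PartQ
  intro a ha ha1
  obtain ⟨es, hes, H⟩ := H a ha ha1
  refine ⟨es, hes, fun e0 he0 he0' => ?_⟩
  obtain ⟨k8s, hk8s, H⟩ := H e0 he0 he0'
  refine ⟨k8s, hk8s, fun k8 hk8 hk8' => ?_⟩
  obtain ⟨k3s, hk3s, H⟩ := H k8 hk8 hk8'
  refine ⟨k3s, hk3s, fun k3 hk3 hk3' => ?_⟩
  obtain ⟨gam, c1, d0, del, hgam, hc1, hd0, hdel, H⟩ := H k3 hk3 hk3'
  refine ⟨gam, c1, min d0 8, del, hgam, hc1, lt_min hd0 (by norm_num), hdel,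
    fun c hc hcc d hd hdd Kt e cP L hK he hcP hL => ?_⟩
  obtain ⟨CD, hCD, C, hC, H⟩ := H c hc hcc d hd (hdd.trans (min_le_left _ _)) Kt e cP L hK he hcP hL
  refine ⟨CD, hCD, C, hC, ?_⟩
  intro t ht ht1 n ez F1 F2 F3 h1 h3 h2 o ho K hKn x ι _ _ s r U g u v hs hr hcls Q1 Q2 Q3 q1 q2 q3
  refine H t ht ht1 n ez F1 F2 F3 h1 h3 h2 o ho K hKn x ι s r U g u _ hs hr (ClsM_lo _ hcls)
    Q1 Q2 Q3 q1 q2 q3 ?_
  exact fib_DvS (p := ⟨a, e0, k8, k3, c, d, Kt, e, cP, L, CD, t⟩) ht ht1 hd.le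
    (hdd.trans (min_le_right _ _)) hs hr hcls

/-- **The class statement from the leaves**: the bundle of the flow part may use the fibres. -/
theorem ce1q_of_MkF {DI DZ DF : Bun} (H0 : HSt0 DvS) (H1 : HSt1) (H2 : HSt2) (H3 : HSt3)
    (MI : MkF DI) (MZ : MkF DZ) (MF : MkF DF) (HI : PartF DI NI) (HZ : PartF DZ NZ)
    (HF : PartF DF NTFf) : CE1q :=
  ce1q_of_mkV DvS DvS_CD H0 H1 H2 H3 MI.toV MZ.toV MF.toV HI HZ HF

/-- maker and part -/
theorem CStV.of_mkF {D : Bun} {T : FunF} (H1 : MkF D) (H2 : PartF D T) : CStV DvS T :=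
  CStV.of_mk H1.toV H2

/-- **The class statement from the prices of the functionals of the definite families.** -/
theorem ce1q_of_CStS (H0 : HSt0 DvS) (H1 : HSt1) (H2 : HSt2) (H3 : HSt3) (HI : CStV DvS NI)
    (HZ : CStV DvS NZ) (HF : CStV DvS NF) : CE1q :=
  ce1q_of_cstV DvS DvS_CD H0 ((HSt.of_three H1 H2 H3).toV DvS) HI HZ HF

end

end Vale.Agent.P141.H401
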