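import Vale.Agent.P141.H401.PartF
import Vale.Agent.P141.H677.SkelTF

/-!
# P141, line (A), top: adaptors between the bundles

* `PartX.mono` ; `PartF.weaken` : change of the bundle;
* `NF_le_TFf` : the flow functional of `PartF` is at most `H677.Sk.TFf`;
* `ce1q_of_three` : three bundles, one for each part, one maker.
-/

namespace Vale.Agent.P141.H401

open Finset Matrix
open Vale.Agent.P141.PL (Pt iv hs cx)
open Vale.Agent.P141.PL.H315 (Tri)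
open Vale.Agent.P141.H48 (US ES cst)
open Vale.Agent.P141.H677
open Vale.Agent.P141.H305 (ClsM kapM CE1q cmp price_mono)

noncomputable section

open scoped Classical

set_option linter.unusedSectionVars false

/-- **Change of the statement.** -/
theorem PartX.mono {Φ1 Φ : StX} (H1 : PartX Φ1)
    (h : ∀ (ι : Type) [Fintype ι] [DecidableEq ι] (p : Num) (n : ℕ) (ez : ℝ)
      (F1 F2 F3 : ℕ → Pt → ℝ) (o : ℤ) (K : ℕ) (x : Pt) (s r : ℝ) (U : Tri) (g : ℤ → ℤ → ℝ)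
      (u v : ℤ → ℤ → ι → ℝ) (B : ℝ), 0 < p.t → p.t ≤ 1 → 0 < s → 1 ≤ r → o = 1 ∨ o = -1 →
      Φ1 ι p n ez F1 F2 F3 o K x s r U g u v B → Φ ι p n ez F1 F2 F3 o K x s r U g u v B) :
    PartX Φ := by
  intro a ha ha1
  obtain ⟨es1, hes1, H1⟩ := H1 a ha ha1
  refine ⟨es1, hes1, fun e0 he0 he0' => ?_⟩
  obtain ⟨k81, hk81, H1⟩ := H1 e0 he0 he0'
  refine ⟨k81, hk81, fun k8 hk8 hk8' => ?_⟩
  obtain ⟨k31, hk31, H1⟩ := H1 k8 hk8 hk8'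
  refine ⟨k31, hk31, fun k3 hk3 hk3' => ?_⟩
  obtain ⟨g1, c1, d1, l1, hg1, hc1, hd1, hl1, H1⟩ := H1 k3 hk3 hk3'
  refine ⟨g1, c1, d1, l1, hg1, hc1, hd1, hl1,
    fun c hc hcc d hd hdd Kt e cP L hK he hcP hL CD hCD => ?_⟩
  obtain ⟨C1, hC1, H1⟩ := H1 c hc hcc d hd hdd Kt e cP L hK he hcP hL CD hCD
  refine ⟨C1, hC1, ?_⟩
  intro t ht ht1 n ez F1 F2 F3 h1 h3 h2 o ho K hKn x ι _ _ s r U g u v hs hr hcls
  exact h ι _ n ez F1 F2 F3 o K x s r U g u v _ ht ht1 hs hr ho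
    (H1 t ht ht1 n ez F1 F2 F3 h1 h3 h2 o ho K hKn x ι s r U g u v hs hr hcls)

/-- **A constant factor.** -/
theorem PartX.smul {Φ1 Φ : StX} (H1 : PartX Φ1) (q : ℝ) (hq : 0 ≤ q)
    (h : ∀ (ι : Type) [Fintype ι] [DecidableEq ι] (p : Num) (n : ℕ) (ez : ℝ)
      (F1 F2 F3 : ℕ → Pt → ℝ) (o : ℤ) (K : ℕ) (x : Pt) (s r : ℝ) (U : Tri) (g : ℤ → ℤ → ℝ)
      (u v : ℤ → ℤ → ι → ℝ) (B : ℝ), 0 < p.t → p.t ≤ 1 → 0 < s → 1 ≤ r → o = 1 ∨ o = -1 →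
      Φ1 ι p n ez F1 F2 F3 o K x s r U g u v B →
      Φ ι p n ez F1 F2 F3 o K x s r U g u v (q * B)) :
    PartX Φ := by
  intro a ha ha1
  obtain ⟨es1, hes1, H1⟩ := H1 a ha ha1
  refine ⟨es1, hes1, fun e0 he0 he0' => ?_⟩
  obtain ⟨k81, hk81, H1⟩ := H1 e0 he0 he0'
  refine ⟨k81, hk81, fun k8 hk8 hk8' => ?_⟩
  obtain ⟨k31, hk31, H1⟩ := H1 k8 hk8 hk8'
  refine ⟨k31, hk31, fun k3 hk3 hk3' => ?_⟩
  obtain ⟨g1, c1, d1, l1, hg1, hc1, hd1, hl1, H1⟩ := H1 k3 hk3 hk3'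
  refine ⟨g1, c1, d1, l1, hg1, hc1, hd1, hl1,
    fun c hc hcc d hd hdd Kt e cP L hK he hcP hL CD hCD => ?_⟩
  obtain ⟨C1, hC1, H1⟩ := H1 c hc hcc d hd hdd Kt e cP L hK he hcP hL CD hCD
  refine ⟨q * C1, by positivity, ?_⟩
  intro t ht ht1 n ez F1 F2 F3 h1 h3 h2 o ho K hKn x ι _ _ s r U g u v hs hr hcls
  have h5 := h ι _ n ez F1 F2 F3 o K x s r U g u v _ ht ht1 hs hr ho
    (H1 t ht ht1 n ez F1 F2 F3 h1 h3 h2 o ho K hKn x ι s r U g u v hs hr hcls)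
  have e5 : q * (C1 * (t ^ (1 + g1) * s ^ (5 / 4 : ℝ) * √ez * 8 ^ K) * r ^ (-l1)) =
      q * C1 * (t ^ (1 + g1) * s ^ (5 / 4 : ℝ) * √ez * 8 ^ K) * r ^ (-l1) := by ring
  rwa [e5] at h5

/-- **Change of the statement**, maker. -/
theorem PartY.mono {Φ1 Φ : StX} (H1 : PartY Φ1)
    (h : ∀ (ι : Type) [Fintype ι] [DecidableEq ι] (p : Num) (n : ℕ) (ez : ℝ)
      (F1 F2 F3 : ℕ → Pt → ℝ) (o : ℤ) (K : ℕ) (x : Pt) (s r : ℝ) (U : Tri) (g : ℤ → ℤ → ℝ)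
      (u v : ℤ → ℤ → ι → ℝ) (B : ℝ), 0 < p.t → p.t ≤ 1 → 1 ≤ p.CD → 0 < s → 1 ≤ r →
      o = 1 ∨ o = -1 →
      Φ1 ι p n ez F1 F2 F3 o K x s r U g u v B → Φ ι p n ez F1 F2 F3 o K x s r U g u v B) :
    PartY Φ := by
  intro a ha ha1
  obtain ⟨es1, hes1, H1⟩ := H1 a ha ha1
  refine ⟨es1, hes1, fun e0 he0 he0' => ?_⟩
  obtain ⟨k81, hk81, H1⟩ := H1 e0 he0 he0'
  refine ⟨k81, hk81, fun k8 hk8 hk8' => ?_⟩
  obtain ⟨k31, hk31, H1⟩ := H1 k8 hk8 hk8'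
  refine ⟨k31, hk31, fun k3 hk3 hk3' => ?_⟩
  obtain ⟨g1, c1, d1, l1, hg1, hc1, hd1, hl1, H1⟩ := H1 k3 hk3 hk3'
  refine ⟨g1, c1, d1, l1, hg1, hc1, hd1, hl1, fun c hc hcc d hd hdd Kt e cP L hK he hcP hL => ?_⟩
  obtain ⟨CD, hCD, C1, hC1, H1⟩ := H1 c hc hcc d hd hdd Kt e cP L hK he hcP hL
  refine ⟨CD, hCD, C1, hC1, ?_⟩
  intro t ht ht1 n ez F1 F2 F3 h1 h3 h2 o ho K hKn x ι _ _ s r U g u v hs hr hcls
  exact h ι _ n ez F1 F2 F3 o K x s r U g u v _ ht ht1 hCD hs hr ho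
    (H1 t ht ht1 n ez F1 F2 F3 h1 h3 h2 o ho K hKn x ι s r U g u v hs hr hcls)

/-- a property implied by another one -/
theorem PartF.weaken {D D' : Bun} {T : FunF} (H : PartF D T)
    (h : ∀ (ι : Type) [Fintype ι] [DecidableEq ι] (p : Num) (n : ℕ) (ez : ℝ)
      (F1 F2 F3 : ℕ → Pt → ℝ) (o : ℤ) (K : ℕ) (x : Pt) (s r : ℝ) (U : Tri) (g : ℤ → ℤ → ℝ)
      (u v : ℤ → ℤ → ι → ℝ) (A : ℤ → ℕ → ℤ → ℤ → ℝ) (b C : ℤ → ℕ → ℤ → ℤ → ι → ℝ),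
      D' ι p n ez F1 F2 F3 o K x s r U g u v A b C → D ι p n ez F1 F2 F3 o K x s r U g u v A b C) :
    PartF D' T := by
  refine PartX.mono H ?_
  intro ι _ _ p n ez F1 F2 F3 o K x s r U g u v B _ _ _ _ _ h1 A b C hD
  exact h1 A b C (h ι p n ez F1 F2 F3 o K x s r U g u v A b C hD)

/-- a functional bounded by a multiple of another one -/
theorem PartF.le {D : Bun} {T T' : FunF} (H : PartF D T) (q : ℝ) (hq : 0 ≤ q)
    (h : ∀ (ι : Type) [Fintype ι] [DecidableEq ι] (l : ℝ) (o : ℤ) (_ : o = 1 ∨ o = -1)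
      (Al : ℕ → Pt → Prop) (K : ℕ)
      (x : Pt) (u : ℤ → ℤ → ι → ℝ) (A : ℤ → ℕ → ℤ → ℤ → ℝ) (b C : ℤ → ℕ → ℤ → ℤ → ι → ℝ)
      (sg : ℕ → Pt → ℝ), T' ι l o Al K x u A b C sg ≤ q * T ι l o Al K x u A b C sg) :
    PartF D T' := by
  refine PartX.smul H q hq ?_
  intro ι _ _ p n ez F1 F2 F3 o K x s r U g u v B _ _ _ _ ho h1 A b C hD sg hsg
  exact (h ι _ o ho _ K x u A b C sg).trans (mul_le_mul_of_nonneg_left (h1 A b C hD sg hsg) hq)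

/-- **The flow functional in the letters of `SkelTF`.** -/
theorem NF_le_TFf {ι : Type} [Fintype ι] [DecidableEq ι] (l : ℝ) (o : ℤ) (Al : ℕ → Pt → Prop)
    (K : ℕ) (x : Pt) (u : ℤ → ℤ → ι → ℝ) (A : ℤ → ℕ → ℤ → ℤ → ℝ) (b C : ℤ → ℕ → ℤ → ℤ → ι → ℝ)
    (sg : ℕ → Pt → ℝ) :
    NF ι l o Al K x u A b C sg ≤ Sk.TFf ι Al o K (PL.cx K x) sg l u A b C := by
  unfold NF Sk.TFf
  refine (abs_sum_le_sum_abs _ _).trans (sum_le_sum fun t _ => ?_)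
  refine (abs_sum_le_sum_abs _ _).trans (sum_le_sum fun x0 _ => le_of_eq ?_)
  congr 1
  rw [← abel_fam l (KT l u) K (PL.cx K x) (cP o x0) (sN Al o K (PL.cx K x) x0)
    (fun k m => sg k (rv m) * hs k x0) (A x0) (b x0) (C x0) fun k _ => sN_sub ..]

/-- the functional `TFf` of `SkelTF` in the order of `FunF` -/
def NTFf : FunF := fun ι _ _ l o Al K x u A b C sg => Sk.TFf ι Al o K (PL.cx K x) sg l u A b C

/-- **Three bundles, one for each part, one maker.** -/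
theorem ce1q_of_three {DI DZ DF : Bun}
    (HH : PartH fun ι _ _ p n ez F1 F2 F3 o K x s r U g u v A b C =>
      DI ι p n ez F1 F2 F3 o K x s r U g u v A b C ∧ DZ ι p n ez F1 F2 F3 o K x s r U g u v A b C ∧
        DF ι p n ez F1 F2 F3 o K x s r U g u v A b C)
    (HI : PartF DI NI) (HZ : PartF DZ NZ) (HF : PartF DF NTFf) : CE1q := by
  refine ce1q_of_fam HH (HI.weaken fun ι _ _ p n ez F1 F2 F3 o K x s r U g u v A b C h => h.1)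
    (HZ.weaken fun ι _ _ p n ez F1 F2 F3 o K x s r U g u v A b C h => h.2.1) ?_
  have h : PartF DF NF := HF.le 1 zero_le_one fun ι _ _ l o _ Al K x u A b C sg => by
    rw [one_mul]
    exact NF_le_TFf l o Al K x u A b C sg
  exact h.weaken fun ι _ _ p n ez F1 F2 F3 o K x s r U g u v A b C h => h.2.2

end

end Vale.Agent.P141.H401
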