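import Vale.Agent.P141.H223.Birth

/-!
# P141: births of the nested lazy projection, operator form

Dyadic tree as in `H223.Birth`: cell `(k, m)` of scale `k`, children `(k, 2 m)`, `(k, 2 m + 1)` of
`(k + 1, m)`, `G` positive semidefinite, `G (k + 1) m` the mean of the children.

* `birth_op` : one cell, Loewner form: `w E' + (1 - E') G (1 - E') ≤ w E + (1 - E) G (1 - E)`;
* `births_op` : the tree, every property of `H223.births` and the Loewner sum
  `∑ (w E + (1 - E) G (1 - E)) ≤ 2 ^ (n - k) G n m` over the cells of scale `k` below `(n, m)`;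
* `mass_le` : `w ∑ ⟨u, E u⟩ ≤ 2 ^ (n - k) ⟨u, G n m u⟩` for every fixed vector `u`;
* `born_sum`, `born_mass`, `born_trace` : the births `E k i - E (k + 1) (i / 2)` (projections),
  summed over all scales with weight `2 ^ k`.
-/

namespace Vale.Agent.P141.H401

open Matrix Finset
open Vale.Agent.P141.H223 (Pj exists_spec diag_mul diag_trace diag_transpose diag_one diag_psd)

noncomputable section

variable {ι : Type*} [Fintype ι] [DecidableEq ι]

/-- the operator potential of the births -/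
def Pot (w : ℝ) (G E : Matrix ι ι ℝ) : Matrix ι ι ℝ := w • E + (1 - E) * G * (1 - E)

theorem Pj.compl_mul {E E' : Matrix ι ι ℝ} (h : E' * E = E) : (1 - E') * E = 0 := by
  rw [Matrix.sub_mul, Matrix.one_mul, h, sub_self]

/-- **One birth, operator form.** -/
theorem birth_op {w : ℝ} (hw : 0 < w) {G E : Matrix ι ι ℝ} (hG : G.PosSemidef) (hE : Pj E) :
    ∃ E' : Matrix ι ι ℝ, Pj E' ∧ E' * E = E ∧ E * E' = E ∧
      (w • (1 : Matrix ι ι ℝ) - (1 - E') * G * (1 - E')).PosSemidef ∧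
      (Pot w G E - Pot w G E').PosSemidef ∧
      E' * ((1 - E) * G * (1 - E)) = (1 - E) * G * (1 - E) * E' := by
  classical
  have hC := hE.compl
  have hR : ((1 - E) * G * (1 - E)).PosSemidef := by
    have h1 := hG.mul_mul_conjTranspose_same (1 - E)
    rwa [conjTranspose_eq_transpose_of_trivial, hC.tr] at h1
  obtain ⟨U, d, hU1, hU2, hd, hRe⟩ := exists_spec hR
  set R := (1 - E) * G * (1 - E) with hRdef
  set p : ι → ℝ := fun i => if w < d i then 1 else 0 with hp
  set q : ι → ℝ := fun i => if w < d i then (d i)⁻¹ else 0 with hq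
  set P := U * diagonal p * Uᵀ with hP
  set S := U * diagonal q * Uᵀ with hS
  have hPP : P * P = P := by
    rw [hP, diag_mul hU1]
    congr 3
    funext i
    simp only [hp]
    split_ifs <;> norm_num
  have hPt : Pᵀ = P := diag_transpose U p
  have hPR : P = R * S := by
    rw [hP, hRe, hS, diag_mul hU1]
    congr 3
    funext i
    simp only [hp, hq]
    split_ifs with h
    · rw [mul_inv_cancel₀ (hw.trans h).ne']
    · rw [mul_zero]
  have hPR' : P = S * R := by
    rw [hP, hRe, hS, diag_mul hU1]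
    congr 3
    funext i
    simp only [hp, hq]
    split_ifs with h
    · rw [inv_mul_cancel₀ (hw.trans h).ne']
    · rw [zero_mul]
  have hE1 : E * (1 - E) = 0 := by rw [Matrix.mul_sub, Matrix.mul_one, hE.sq, sub_self]
  have h1E : (1 - E) * E = 0 := by rw [Matrix.sub_mul, Matrix.one_mul, hE.sq, sub_self]
  have hER : E * R = 0 := by
    rw [hRdef, ← Matrix.mul_assoc, ← Matrix.mul_assoc, hE1, Matrix.zero_mul, Matrix.zero_mul]
  have hRE : R * E = 0 := by
    rw [hRdef, Matrix.mul_assoc, h1E, Matrix.mul_zero]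
  have hEP : E * P = 0 := by rw [hPR, ← Matrix.mul_assoc, hER, Matrix.zero_mul]
  have hPE : P * E = 0 := by rw [hPR', Matrix.mul_assoc, hRE, Matrix.mul_zero]
  have hPRc : P * R = R * P := by
    rw [hP, hRe, diag_mul hU1, diag_mul hU1]
    congr 3
    funext i
    exact mul_comm _ _
  have hE' : Pj (E + P) := by
    refine ⟨by rw [transpose_add, hE.tr, hPt], ?_⟩
    rw [Matrix.mul_add, Matrix.add_mul, Matrix.add_mul, hE.sq, hPP, hEP, hPE]
    abel
  have hfac : 1 - (E + P) = (1 - E) * (1 - P) := by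
    simp only [Matrix.mul_sub, Matrix.sub_mul, Matrix.mul_one, Matrix.one_mul, hEP]
    abel
  have hfac' : 1 - (E + P) = (1 - P) * (1 - E) := by
    simp only [Matrix.mul_sub, Matrix.sub_mul, Matrix.mul_one, Matrix.one_mul, hPE]
    abel
  have h1P : 1 - P = U * diagonal (fun i => 1 - p i) * Uᵀ := by
    have h1 := diag_one hU2 1
    rw [one_smul] at h1
    rw [hP]
    conv_lhs => rw [h1]
    rw [H223.diag_sub]
  have hres : (1 - (E + P)) * G * (1 - (E + P)) =
      U * diagonal (fun i => (1 - p i) * d i * (1 - p i)) * Uᵀ := by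
    have h1 : (1 - (E + P)) * G * (1 - (E + P)) = (1 - P) * R * (1 - P) := by
      calc (1 - (E + P)) * G * (1 - (E + P))
          = ((1 - P) * (1 - E)) * G * ((1 - E) * (1 - P)) := by
            rw [← hfac', ← hfac]
        _ = _ := by rw [hRdef]; simp only [Matrix.mul_assoc]
    rw [h1, h1P, hRe, diag_mul hU1, diag_mul hU1]
  refine ⟨E + P, hE', by rw [Matrix.add_mul, hE.sq, hPE, add_zero],
    by rw [Matrix.mul_add, hE.sq, hEP, add_zero], ?_, ?_, ?_⟩
  · rw [hres, diag_one hU2 w, H223.diag_sub]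
    refine diag_psd fun i => ?_
    simp only [hp]
    split_ifs with h
    · simp [hw.le]
    · push Not at h
      simp only [sub_zero, one_mul, mul_one]
      linarith
  · have e1 : Pot w G E - Pot w G (E + P) =
        U * diagonal (fun i => d i - w * p i - (1 - p i) * d i * (1 - p i)) * Uᵀ := by
      unfold Pot
      rw [hres, ← hRdef]
      have e2 : w • P = U * diagonal (fun i => w * p i) * Uᵀ := by
        rw [hP, ← Matrix.smul_mul, ← Matrix.mul_smul]
        congr 3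
        ext i j
        simp only [Matrix.smul_apply, diagonal_apply, smul_eq_mul]
        split_ifs <;> simp
      calc w • E + R - (w • (E + P) + U * diagonal (fun i => (1 - p i) * d i * (1 - p i)) * Uᵀ)
          = R - w • P - U * diagonal (fun i => (1 - p i) * d i * (1 - p i)) * Uᵀ := by
            rw [smul_add]; abel
        _ = _ := by rw [e2, hRe, H223.diag_sub, H223.diag_sub]
    rw [e1]
    refine diag_psd fun i => ?_
    simp only [hp]
    split_ifs with h
    · simp only [mul_one, sub_self, zero_mul, mul_zero, sub_zero]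
      linarith
    · simp
  · rw [Matrix.add_mul, Matrix.mul_add, hER, hRE, hPRc]

/-- the next projection -/
def nx (w : ℝ) (G E : Matrix ι ι ℝ) : Matrix ι ι ℝ :=
  open Classical in
  if h : 0 < w ∧ G.PosSemidef ∧ Pj E then (birth_op h.1 h.2.1 h.2.2).choose else E

theorem nx_spec {w : ℝ} (hw : 0 < w) {G E : Matrix ι ι ℝ} (hG : G.PosSemidef) (hE : Pj E) :
    Pj (nx w G E) ∧ nx w G E * E = E ∧ E * nx w G E = E ∧
      (w • (1 : Matrix ι ι ℝ) - (1 - nx w G E) * G * (1 - nx w G E)).PosSemidef ∧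
      (Pot w G E - Pot w G (nx w G E)).PosSemidef ∧
      nx w G E * ((1 - E) * G * (1 - E)) = (1 - E) * G * (1 - E) * nx w G E := by
  unfold nx
  rw [dif_pos ⟨hw, hG, hE⟩]
  exact (birth_op hw hG hE).choose_spec

/-- the projection at depth `j` below the scale `n` -/
def EJ (w : ℝ) (n : ℕ) (G : ℕ → ℤ → Matrix ι ι ℝ) : ℕ → ℤ → Matrix ι ι ℝ
  | 0, m => nx w (G n m) 0
  | (j + 1), m => nx w (G (n - (j + 1)) m) (EJ w n G j (m / 2))

/-- the nested projection at the cell `(k, m)`, births from the scale `n` down -/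
def EB (w : ℝ) (n : ℕ) (G : ℕ → ℤ → Matrix ι ι ℝ) (k : ℕ) (m : ℤ) : Matrix ι ι ℝ :=
  EJ w n G (n - k) m

theorem EB_top (w : ℝ) (n : ℕ) (G : ℕ → ℤ → Matrix ι ι ℝ) (m : ℤ) :
    EB w n G n m = nx w (G n m) 0 := by
  unfold EB
  rw [Nat.sub_self, EJ]

theorem EB_step (w : ℝ) {n k : ℕ} (G : ℕ → ℤ → Matrix ι ι ℝ) (hk : k < n) (m : ℤ) :
    EB w n G k m = nx w (G k m) (EB w n G (k + 1) (m / 2)) := by
  obtain ⟨j, hj⟩ : ∃ j, n - k = j + 1 := ⟨n - k - 1, by omega⟩
  have h1 : n - (k + 1) = j := by omega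
  have h2 : n - (j + 1) = k := by omega
  unfold EB
  rw [hj, h1, EJ, h2]

section tree

variable {w : ℝ} {n : ℕ} {G : ℕ → ℤ → Matrix ι ι ℝ}

theorem EB_pj (hw : 0 < w) (hG : ∀ k ≤ n, ∀ m, (G k m).PosSemidef) {k : ℕ} (hk : k ≤ n) (m : ℤ) :
    Pj (EB w n G k m) := by
  obtain ⟨j, hj⟩ : ∃ j, k + j = n := ⟨n - k, by omega⟩
  induction j generalizing k m with
  | zero =>
    have hk' : k = n := by omega
    subst hk'
    rw [EB_top]
    exact (nx_spec hw (hG k le_rfl m) Pj.zero).1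
  | succ j ih =>
    rw [EB_step w G (by omega) m]
    exact (nx_spec hw (hG k hk m) (ih (k := k + 1) (by omega) (m / 2) (by omega))).1

/-- **Births on a finite dyadic tree, operator form**, one cell. -/
theorem EB_spec (hw : 0 < w) (hG : ∀ k ≤ n, ∀ m, (G k m).PosSemidef) {k : ℕ} (hk : k < n)
    (m : ℤ) :
    EB w n G k m * EB w n G (k + 1) (m / 2) = EB w n G (k + 1) (m / 2) ∧
    EB w n G (k + 1) (m / 2) * EB w n G k m = EB w n G (k + 1) (m / 2) ∧
    (Pot w (G k m) (EB w n G (k + 1) (m / 2)) - Pot w (G k m) (EB w n G k m)).PosSemidef := by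
  have h := nx_spec hw (hG k hk.le m) (EB_pj hw hG (k := k + 1) hk (m / 2))
  rw [EB_step w G hk m]
  exact ⟨h.2.1, h.2.2.1, h.2.2.2.2.1⟩

/-- residual potentials are at most `w` at every cell -/
theorem EB_res (hw : 0 < w) (hG : ∀ k ≤ n, ∀ m, (G k m).PosSemidef) {k : ℕ} (hk : k ≤ n)
    (m : ℤ) :
    (w • (1 : Matrix ι ι ℝ) - (1 - EB w n G k m) * G k m * (1 - EB w n G k m)).PosSemidef := by
  rcases hk.eq_or_lt with rfl | hlt
  · rw [EB_top]
    exact (nx_spec hw (hG _ le_rfl m) Pj.zero).2.2.2.1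
  · rw [EB_step w G hlt m]
    exact (nx_spec hw (hG k hk m) (EB_pj hw hG (k := k + 1) hlt (m / 2))).2.2.2.1

theorem EB_top_le (hw : 0 < w) (hG : ∀ k ≤ n, ∀ m, (G k m).PosSemidef) (m : ℤ) :
    (G n m - Pot w (G n m) (EB w n G n m)).PosSemidef := by
  rw [EB_top]
  have h := (nx_spec hw (hG n le_rfl m) (Pj.zero (ι := ι))).2.2.2.2.1
  have e : Pot w (G n m) (0 : Matrix ι ι ℝ) = G n m := by
    unfold Pot
    simp
  rwa [e] at h

end tree

/-! ### Sums over the tree -/

/-- the cells of scale `k` below `(n, m)`, `j = n - k` -/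
abbrev cl (j : ℕ) (m : ℤ) : Finset ℤ := Ico (2 ^ j * m) (2 ^ j * m + 2 ^ j)

theorem sum_cl_succ (j : ℕ) (m : ℤ) (f : ℤ → ℝ) :
    ∑ i ∈ cl (j + 1) m, f i = ∑ i ∈ cl j m, (f (2 * i) + f (2 * i + 1)) := by
  have hI : cl (j + 1) m = (cl j m).biUnion fun i => {2 * i, 2 * i + 1} := by
    unfold cl
    have e0 : (2 : ℤ) ^ (j + 1) * m = 2 * (2 ^ j * m) := by rw [pow_succ]; ring
    have e0' : (2 : ℤ) ^ (j + 1) = 2 * 2 ^ j := by rw [pow_succ]; ring
    rw [e0, e0']
    generalize (2 : ℤ) ^ j * m = a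
    generalize (2 : ℤ) ^ j = b
    ext y
    simp only [mem_Ico, mem_biUnion, mem_insert, mem_singleton]
    constructor
    · rintro ⟨h1, h2⟩
      refine ⟨y / 2, ⟨by omega, by omega⟩, by omega⟩
    · rintro ⟨i, ⟨h1, h2⟩, h3⟩
      constructor <;> omega
  rw [hI, sum_biUnion]
  · refine sum_congr rfl fun i _ => ?_
    rw [sum_pair (by omega)]
  · intro a _ b _ hab
    simp only [Function.onFun]
    rw [disjoint_left]
    intro y h1 h2
    simp only [mem_insert, mem_singleton] at h1 h2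
    omega

theorem cl_zero (m : ℤ) : cl 0 m = {m} := by
  unfold cl
  ext y
  simp only [pow_zero, one_mul, mem_Ico, mem_singleton]
  omega

/-- a supermartingale along the tree -/
theorem tree_le {n : ℕ} {f : ℕ → ℤ → ℝ}
    (h : ∀ k < n, ∀ i, f k (2 * i) + f k (2 * i + 1) ≤ 2 * f (k + 1) i) {k : ℕ} (hk : k ≤ n)
    (m : ℤ) : ∑ i ∈ cl (n - k) m, f k i ≤ 2 ^ (n - k) * f n m := by
  obtain ⟨j, hj⟩ : ∃ j, n - k = j := ⟨_, rfl⟩
  induction j generalizing k with
  | zero =>
    have hk' : k = n := by omega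
    subst hk'
    rw [hj, cl_zero]
    simp
  | succ j ih =>
    rw [hj, sum_cl_succ]
    have ih' := ih (k := k + 1) (by omega) (by omega)
    have e : n - (k + 1) = j := by omega
    rw [e] at ih'
    calc ∑ i ∈ cl j m, (f k (2 * i) + f k (2 * i + 1))
        ≤ ∑ i ∈ cl j m, 2 * f (k + 1) i := sum_le_sum fun i _ => h k (by omega) i
      _ = 2 * ∑ i ∈ cl j m, f (k + 1) i := by rw [mul_sum]
      _ ≤ 2 * (2 ^ j * f n m) := by linarith
      _ = 2 ^ (j + 1) * f n m := by ring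

/-- telescoping along the tree with the weights `2 ^ k` -/
theorem tree_tele (n : ℕ) (f : ℕ → ℤ → ℝ) (m : ℤ) :
    ∑ k ∈ range n, 2 ^ k * ∑ i ∈ cl (n - k) m, (f k i - f (k + 1) (i / 2)) + 2 ^ n * f n m =
      ∑ i ∈ cl n m, f 0 i := by
  have h1 : ∀ k ∈ range n, (2 : ℝ) ^ k * ∑ i ∈ cl (n - k) m, (f k i - f (k + 1) (i / 2)) =
      2 ^ k * ∑ i ∈ cl (n - k) m, f k i - 2 ^ (k + 1) * ∑ i ∈ cl (n - (k + 1)) m, f (k + 1) i := by
    intro k hk
    rw [mem_range] at hk
    obtain ⟨j, hj⟩ : ∃ j, n - k = j + 1 := ⟨n - k - 1, by omega⟩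
    have hj' : n - (k + 1) = j := by omega
    rw [sum_sub_distrib, mul_sub, hj, hj', sum_cl_succ j m fun i => f (k + 1) (i / 2)]
    have h2 : ∀ i : ℤ, f (k + 1) (2 * i / 2) + f (k + 1) ((2 * i + 1) / 2) = 2 * f (k + 1) i := by
      intro i
      have e1 : 2 * i / 2 = i := by omega
      have e2 : (2 * i + 1) / 2 = i := by omega
      rw [e1, e2]
      ring
    rw [sum_congr rfl fun i _ => h2 i, ← mul_sum]
    ring
  have h3 := sum_range_sub' (fun k => (2 : ℝ) ^ k * ∑ i ∈ cl (n - k) m, f k i) n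
  rw [sum_congr rfl h1, h3]
  simp [cl_zero]

/-- the quadratic form of a fixed vector -/
def qf (u : ι → ℝ) (A : Matrix ι ι ℝ) : ℝ := u ⬝ᵥ A *ᵥ u

omit [DecidableEq ι] in
theorem qf_add (u : ι → ℝ) (A B : Matrix ι ι ℝ) : qf u (A + B) = qf u A + qf u B := by
  unfold qf
  rw [add_mulVec, dotProduct_add]

omit [DecidableEq ι] in
theorem qf_sub (u : ι → ℝ) (A B : Matrix ι ι ℝ) : qf u (A - B) = qf u A - qf u B := by
  unfold qf
  rw [sub_mulVec, dotProduct_sub]

omit [DecidableEq ι] in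
theorem qf_smul (u : ι → ℝ) (c : ℝ) (A : Matrix ι ι ℝ) : qf u (c • A) = c * qf u A := by
  unfold qf
  rw [smul_mulVec, dotProduct_smul, smul_eq_mul]

omit [DecidableEq ι] in
theorem qf_nonneg {u : ι → ℝ} {A : Matrix ι ι ℝ} (h : A.PosSemidef) : 0 ≤ qf u A := by
  have := h.dotProduct_mulVec_nonneg u
  simpa [qf] using this

theorem Pot_mean {w : ℝ} {G0 G1 G E : Matrix ι ι ℝ} (h : G = (1 / 2 : ℝ) • (G0 + G1)) :
    Pot w G0 E + Pot w G1 E = (2 : ℝ) • Pot w G E := by
  subst h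
  unfold Pot
  rw [Matrix.mul_smul, Matrix.smul_mul, Matrix.mul_add, Matrix.add_mul, smul_add, smul_smul,
    smul_smul]
  norm_num
  rw [two_mul, add_smul]
  abel

section sums

variable {w : ℝ} {n : ℕ} {G : ℕ → ℤ → Matrix ι ι ℝ}

/-- **Loewner sum of the operator potential**, tested on a linear functional which is nonnegative
on positive semidefinite matrices (`qf u`, the trace, `tr (H ·)`, ..). -/
theorem pot_sum (hw : 0 < w) (hG : ∀ k ≤ n, ∀ m, (G k m).PosSemidef)
    (hmean : ∀ k < n, ∀ m, G (k + 1) m = (1 / 2 : ℝ) • (G k (2 * m) + G k (2 * m + 1)))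
    (L : Matrix ι ι ℝ →ₗ[ℝ] ℝ) (hL : ∀ A : Matrix ι ι ℝ, A.PosSemidef → 0 ≤ L A)
    {k : ℕ} (hk : k ≤ n) (m : ℤ) :
    ∑ i ∈ cl (n - k) m, L (Pot w (G k i) (EB w n G k i)) ≤ 2 ^ (n - k) * L (G n m) := by
  refine (tree_le (f := fun k i => L (Pot w (G k i) (EB w n G k i))) (n := n) ?_ hk m).trans ?_
  · intro k hk i
    have h1 := hL _ (EB_spec hw hG hk (2 * i)).2.2
    have h2 := hL _ (EB_spec hw hG hk (2 * i + 1)).2.2
    have e1 : 2 * i / 2 = i := by omega
    have e2 : (2 * i + 1) / 2 = i := by omega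
    rw [e1, map_sub] at h1
    rw [e2, map_sub] at h2
    have h3 := congrArg L (Pot_mean (w := w) (E := EB w n G (k + 1) i) (hmean k hk i))
    rw [map_add, map_smul, smul_eq_mul] at h3
    linarith
  · have h1 := hL _ (EB_top_le hw hG m)
    rw [map_sub] at h1
    exact mul_le_mul_of_nonneg_left (by linarith) (by positivity)

/-- the quadratic form as a linear functional of the matrix -/
def qfL (u : ι → ℝ) : Matrix ι ι ℝ →ₗ[ℝ] ℝ where
  toFun := qf u
  map_add' := qf_add u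
  map_smul' := fun c A => qf_smul u c A

/-- residual and born mass of a fixed vector at one scale -/
theorem quad_sum (hw : 0 < w) (hG : ∀ k ≤ n, ∀ m, (G k m).PosSemidef)
    (hmean : ∀ k < n, ∀ m, G (k + 1) m = (1 / 2 : ℝ) • (G k (2 * m) + G k (2 * m + 1)))
    (u : ι → ℝ) {k : ℕ} (hk : k ≤ n) (m : ℤ) :
    ∑ i ∈ cl (n - k) m, (w * qf u (EB w n G k i) +
      qf u ((1 - EB w n G k i) * G k i * (1 - EB w n G k i))) ≤ 2 ^ (n - k) * qf u (G n m) := by
  refine le_trans (le_of_eq ?_) (pot_sum hw hG hmean (qfL u) (fun A hA => qf_nonneg hA) hk m)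
  refine sum_congr rfl fun i _ => ?_
  show _ = qf u (Pot w (G k i) (EB w n G k i))
  unfold Pot
  rw [qf_add, qf_smul]

theorem res_psd {G E : Matrix ι ι ℝ} (hG : G.PosSemidef) (hE : Pj E) :
    ((1 - E) * G * (1 - E)).PosSemidef := by
  have h1 := hG.mul_mul_conjTranspose_same (1 - E)
  rwa [conjTranspose_eq_transpose_of_trivial, hE.compl.tr] at h1

/-- **Mass of a fixed vector on the born directions.** -/
theorem mass_le (hw : 0 < w) (hG : ∀ k ≤ n, ∀ m, (G k m).PosSemidef)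
    (hmean : ∀ k < n, ∀ m, G (k + 1) m = (1 / 2 : ℝ) • (G k (2 * m) + G k (2 * m + 1)))
    (u : ι → ℝ) {k : ℕ} (hk : k ≤ n) (m : ℤ) :
    w * ∑ i ∈ cl (n - k) m, qf u (EB w n G k i) ≤ 2 ^ (n - k) * qf u (G n m) := by
  refine le_trans ?_ (quad_sum hw hG hmean u hk m)
  rw [mul_sum]
  refine sum_le_sum fun i _ => ?_
  have h1 := qf_nonneg (u := u) (res_psd (hG k hk i) (EB_pj hw hG hk i))
  linarith

/-- the residual energies form a supermartingale -/
theorem resid_le (hw : 0 < w) (hG : ∀ k ≤ n, ∀ m, (G k m).PosSemidef)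
    (hmean : ∀ k < n, ∀ m, G (k + 1) m = (1 / 2 : ℝ) • (G k (2 * m) + G k (2 * m + 1)))
    (u : ι → ℝ) {k : ℕ} (hk : k ≤ n) (m : ℤ) :
    ∑ i ∈ cl (n - k) m, qf u ((1 - EB w n G k i) * G k i * (1 - EB w n G k i)) ≤
      2 ^ (n - k) * qf u (G n m) := by
  refine le_trans ?_ (quad_sum hw hG hmean u hk m)
  refine sum_le_sum fun i _ => ?_
  have h1 := qf_nonneg (u := u) (EB_pj hw hG hk i).posSemidef
  nlinarith

/-- mean rank at one scale -/
theorem rank_le (hw : 0 < w) (hG : ∀ k ≤ n, ∀ m, (G k m).PosSemidef)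
    (hmean : ∀ k < n, ∀ m, G (k + 1) m = (1 / 2 : ℝ) • (G k (2 * m) + G k (2 * m + 1)))
    {k : ℕ} (hk : k ≤ n) (m : ℤ) :
    w * ∑ i ∈ cl (n - k) m, (EB w n G k i).trace ≤ 2 ^ (n - k) * (G n m).trace := by
  refine le_trans ?_ (pot_sum hw hG hmean (Matrix.traceLinearMap ι ℝ ℝ)
    (fun A hA => hA.trace_nonneg) hk m)
  rw [mul_sum]
  refine sum_le_sum fun i _ => ?_
  have h1 := (res_psd (hG k hk i) (EB_pj hw hG hk i)).trace_nonneg
  show _ ≤ (Pot w (G k i) (EB w n G k i)).trace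
  unfold Pot
  rw [trace_add, trace_smul, smul_eq_mul]
  linarith

/-- the births at the cell `(k, i)`: a projection orthogonal to the old one -/
theorem born_pj (hw : 0 < w) (hG : ∀ k ≤ n, ∀ m, (G k m).PosSemidef) {k : ℕ} (hk : k < n)
    (i : ℤ) :
    Pj (EB w n G k i - EB w n G (k + 1) (i / 2)) ∧
      (EB w n G k i - EB w n G (k + 1) (i / 2)) * EB w n G (k + 1) (i / 2) = 0 := by
  have h1 := EB_spec hw hG hk i
  have hp := EB_pj hw hG hk.le i
  have hq := EB_pj hw hG (k := k + 1) hk (i / 2)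
  refine ⟨⟨by rw [transpose_sub, hp.tr, hq.tr], ?_⟩, by rw [Matrix.sub_mul, h1.1, hq.sq, sub_self]⟩
  rw [Matrix.mul_sub, Matrix.sub_mul, Matrix.sub_mul, hp.sq, hq.sq, h1.1, h1.2.1]
  abel

/-- **Births summed over all scales: mass of a fixed vector.** -/
theorem born_mass (hw : 0 < w) (hG : ∀ k ≤ n, ∀ m, (G k m).PosSemidef)
    (hmean : ∀ k < n, ∀ m, G (k + 1) m = (1 / 2 : ℝ) • (G k (2 * m) + G k (2 * m + 1)))
    (u : ι → ℝ) (m : ℤ) :
    w * (∑ k ∈ range n, 2 ^ k * ∑ i ∈ cl (n - k) m,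
        qf u (EB w n G k i - EB w n G (k + 1) (i / 2)) + 2 ^ n * qf u (EB w n G n m)) ≤
      2 ^ n * qf u (G n m) := by
  have h1 := tree_tele n (fun k i => qf u (EB w n G k i)) m
  have h2 := mass_le hw hG hmean u (Nat.zero_le n) m
  rw [Nat.sub_zero, ← h1] at h2
  simpa only [qf_sub] using h2

/-- **Births summed over all scales: ranks.** -/
theorem born_trace (hw : 0 < w) (hG : ∀ k ≤ n, ∀ m, (G k m).PosSemidef)
    (hmean : ∀ k < n, ∀ m, G (k + 1) m = (1 / 2 : ℝ) • (G k (2 * m) + G k (2 * m + 1)))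
    (m : ℤ) :
    w * (∑ k ∈ range n, 2 ^ k * ∑ i ∈ cl (n - k) m,
        (EB w n G k i - EB w n G (k + 1) (i / 2)).trace + 2 ^ n * (EB w n G n m).trace) ≤
      2 ^ n * (G n m).trace := by
  have h1 := tree_tele n (fun k i => (EB w n G k i).trace) m
  have h2 := rank_le hw hG hmean (Nat.zero_le n) m
  rw [Nat.sub_zero, ← h1] at h2
  simpa only [trace_sub] using h2

end sums

end

end Vale.Agent.P141.H401
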