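import Vale.Agent.P141.H401.CutUV
import Vale.Agent.P141.H408.SkelTI2
import Vale.Agent.P141.H652.MkT

/-!
# P141, line (A), top: leaves which may use the fibres of `u` and of `v`

* `FibQ Φ` : the statement `Φ` for class data with small fibres of `u` and of `v`;
* `CStF T` : the price of the functional `T` of the definite families of such data;
* `CStF.toUV` : it serves the data with both dense sets cut off;
* `cstF_NI`, `PairQ.toF`, `PairQ.andF` : the increasing part and its number leaves.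
-/

namespace Vale.Agent.P141.H401

open Finset Matrix
open Vale.Agent.P141.PL (Pt iv hs ix cx mem_iv)
open Vale.Agent.P141.PL.H315 (Tri avg)
open Vale.Agent.P141.H48 (US ES BSl sst cst)
open Vale.Agent.P141.H579 (cosA)
open Vale.Agent.P141.H677
open Vale.Agent.P141.H305 (ClsM kapM CE1q cmp price_mono)

noncomputable section

open scoped Classical

set_option linter.unusedSectionVars false

/-- the statement `Φ` for class data with small fibres of `u` and of `v` -/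
def FibQ (Φ : StQ) : StQ := fun ι _ _ p n ez F1 F2 F3 o K x s r U g u v Q1 Q2 Q3 B =>
  FibU p K x s r U u → FibP p K x s r U v → Φ ι p n ez F1 F2 F3 o K x s r U g u v Q1 Q2 Q3 B

/-- **The price of a functional of the definite families**, data with small fibres. -/
def CStF (T : FunF) : Prop :=
  PartQ (FibQ fun ι _ _ p _n _ez F1 F2 F3 o K x s r U g u v Q1 _Q2 Q3 B =>
    ∀ sg : ℕ → Pt → ℝ, (∀ k m, |sg k m| ≤ 1) →
      T ι (p.lam s r) o (p.al U K) K x u (cA p s r U K g F1 Q1) (cb p s r U K u F3 Q3)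
        (mC p U K v F2) sg ≤ B)

/-- a statement for all class data holds for those with small fibres -/
theorem PartQ.toF {Φ : StQ} (H : PartQ Φ) : PartQ (FibQ Φ) := by
  unfold PartQ at H ⊢
  intro a ha ha1
  obtain ⟨es, hes, H⟩ := H a ha ha1
  refine ⟨es, hes, fun e0 he0 he0' => ?_⟩
  obtain ⟨k8s, hk8s, H⟩ := H e0 he0 he0'
  refine ⟨k8s, hk8s, fun k8 hk8 hk8' => ?_⟩
  obtain ⟨k3s, hk3s, H⟩ := H k8 hk8 hk8'
  refine ⟨k3s, hk3s, fun k3 hk3 hk3' => ?_⟩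
  obtain ⟨gam, c1, d0, del, hgam, hc1, hd0, hdel, H⟩ := H k3 hk3 hk3'
  refine ⟨gam, c1, d0, del, hgam, hc1, hd0, hdel, fun c hc hcc d hd hdd Kt e cP L hK he hcP hL => ?_⟩
  obtain ⟨CD, hCD, C, hC, H⟩ := H c hc hcc d hd hdd Kt e cP L hK he hcP hL
  refine ⟨CD, hCD, C, hC, ?_⟩
  intro t ht ht1 n ez F1 F2 F3 h1 h3 h2 o ho K hKn x ι _ _ s r U g u v hs hr hcls Q1 Q2 Q3 q1 q2 q3
    _ _
  exact H t ht ht1 n ez F1 F2 F3 h1 h3 h2 o ho K hKn x ι s r U g u v hs hr hcls Q1 Q2 Q3 q1 q2 q3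

theorem CSt.toF {T : FunF} (H : CSt T) : CStF T := PartQ.toF H

/-- **A price for data with small fibres serves the data with the dense fibres cut off.** -/
theorem CStF.toUV {T : FunF} (H : CStF T) : CStUV DuS DvS T := by
  unfold CStF PartQ FibQ at H
  unfold CStUV PartQ
  intro a ha ha1
  obtain ⟨es, hes, H⟩ := H a ha ha1
  refine ⟨es, hes, fun e0 he0 he0' => ?_⟩
  obtain ⟨k8s, hk8s, H⟩ := H e0 he0 he0'
  refine ⟨k8s, hk8s, fun k8 hk8 hk8' => ?_⟩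
  obtain ⟨k3s, hk3s, H⟩ := H k8 hk8 hk8'
  refine ⟨k3s, hk3s, fun k3 hk3 hk3' => ?_⟩
  obtain ⟨gam, c1, d0, del, hgam, hc1, hd0, hdel, H⟩ := H k3 hk3 hk3'
  refine ⟨gam, c1, min d0 8, del, hgam, hc1, lt_min hd0 (by norm_num), hdel,
    fun c hc hcc d hd hdd Kt e cP L hK he hcP hL => ?_⟩
  obtain ⟨CD, hCD, C, hC, H⟩ := H c hc hcc d hd (hdd.trans (min_le_left _ _)) Kt e cP L hK he hcP hL
  refine ⟨CD, hCD, C, hC, ?_⟩
  intro t ht ht1 n ez F1 F2 F3 h1 h3 h2 o ho K hKn x ι _ _ s r U g u v hs hr hcls Q1 Q2 Q3 q1 q2 q3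
  have hcl2 := ClsM_loU (DuS ι ⟨a, e0, k8, k3, c, d, Kt, e, cP, L, CD, t⟩ K x s r U u)
    (ClsM_lo (DvS ι ⟨a, e0, k8, k3, c, d, Kt, e, cP, L, CD, t⟩ K x s r U v) hcls)
  exact H t ht ht1 n ez F1 F2 F3 h1 h3 h2 o ho K hKn x ι s r U g _ _ hs hr hcl2
    Q1 Q2 Q3 q1 q2 q3
    (fib_DuS (p := ⟨a, e0, k8, k3, c, d, Kt, e, cP, L, CD, t⟩) ht ht1 hd.le
      (hdd.trans (min_le_right _ _)) hs hr hcls)
    (fib_DvS (p := ⟨a, e0, k8, k3, c, d, Kt, e, cP, L, CD, t⟩) ht ht1 hd.le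
      (hdd.trans (min_le_right _ _)) hs hr hcls)

/-- two functionals -/
theorem CStF.add {T1 T2 T : FunF} (H1 : CStF T1) (H2 : CStF T2)
    (h : ∀ (ι : Type) [Fintype ι] [DecidableEq ι] (l : ℝ) (o : ℤ) (Al : ℕ → Pt → Prop) (K : ℕ)
      (x : Pt) (u : ℤ → ℤ → ι → ℝ) (A : ℤ → ℕ → ℤ → ℤ → ℝ) (b C : ℤ → ℕ → ℤ → ℤ → ι → ℝ)
      (sg : ℕ → Pt → ℝ), T ι l o Al K x u A b C sg ≤
        T1 ι l o Al K x u A b C sg + T2 ι l o Al K x u A b C sg) : CStF T := by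
  unfold CStF PartQ FibQ at H1 H2 ⊢
  exact PartQ.add H1 H2
    (fun ι _ _ p CD n ez F1 F2 F3 o K x s r U g u v B h => h)
    (fun ι _ _ p CD n ez F1 F2 F3 o K x s r U g u v B h => h)
    (fun ι _ _ p n ez F1 F2 F3 o K x s r U g u v B1 B2 B _ _ _ _ k1 k2 k3 Q1 Q2 Q3 q1 q2 q3 f1 f2
      sg hsg => (h ..).trans ((add_le_add (k1 Q1 Q2 Q3 q1 q2 q3 f1 f2 sg hsg)
        (k2 Q1 Q2 Q3 q1 q2 q3 f1 f2 sg hsg)).trans k3))

/-- **maker and part** -/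
theorem CStF.of_mk {D : Bun} {T : FunF} (H1 : MkFU D) (H2 : PartF D T) : CStF T := by
  unfold MkFU PartQ at H1
  unfold PartF at H2
  unfold CStF PartQ FibQ
  refine PartY.addX H1 H2 ?_
  intro ι _ _ p n ez F1 F2 F3 o K x s r U g u v B1 B2 B _ _ _ _ z1 _ k1 k2 k3 Q1 Q2 Q3 q1 q2 q3
    f1 f2 sg hsg
  exact (k2 _ _ _ (k1 Q1 Q2 Q3 q1 q2 q3 f1 f2) sg hsg).trans (by linarith)

/-- **From the slot `Th` to the increasing part**, data with small fibres. -/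
theorem cstF_NI (H : CStF H652.NT) : CStF NI := by
  unfold CStF PartQ FibQ at H ⊢
  have H2 := H652.err_cst
  unfold PartQ at H2
  exact PartQ.add H H2
    (fun ι _ _ p CD n ez F1 F2 F3 o K x s r U g u v B h => h)
    (fun ι _ _ p CD n ez F1 F2 F3 o K x s r U g u v B h => h)
    (fun ι _ _ p n ez F1 F2 F3 o K x s r U g u v B1 B2 B _ _ _ _ k1 k2 k3 Q1 Q2 Q3 q1 q2 q3 f1 f2
      sg hsg => (k2 Q1 Q2 Q3 q1 q2 q3 sg).trans
        ((add_le_add_left (k1 Q1 Q2 Q3 q1 q2 q3 f1 f2 sg hsg) B2).trans k3))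

/-! ### The number leaves of the increasing part -/

/-- a number leaf for all class data holds for those with small fibres -/
theorem PairQ.toF {Φ : StQ} (H : H408.PairQ Φ) : H408.PairQ (FibQ Φ) := by
  intro a ha ha1
  obtain ⟨es, hes, H⟩ := H a ha ha1
  refine ⟨es, hes, fun e0 he0 he0' => ?_⟩
  obtain ⟨k8s, hk8s, H⟩ := H e0 he0 he0'
  refine ⟨k8s, hk8s, fun k8 hk8 hk8' => ?_⟩
  obtain ⟨k3s, hk3s, H⟩ := H k8 hk8 hk8'
  refine ⟨k3s, hk3s, fun k3 hk3 hk3' δ hδ => ?_⟩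
  obtain ⟨c1, d0, hc1, hd0, H⟩ := H k3 hk3 hk3' δ hδ
  refine ⟨c1, d0, hc1, hd0, fun c hc hcc d hd hdd Kt e cP L hK he hcP hL => ?_⟩
  obtain ⟨C, hC, H⟩ := H c hc hcc d hd hdd Kt e cP L hK he hcP hL
  refine ⟨C, hC, ?_⟩
  intro t ht ht1 n ez F1 F2 F3 h1 h3 h2 o ho K hKn x ι _ _ s r U g u v hs hr hcls Q1 Q2 Q3 q1 q2 q3
    hez _ _
  exact H t ht ht1 n ez F1 F2 F3 h1 h3 h2 o ho K hKn x ι s r U g u v hs hr hcls Q1 Q2 Q3 q1 q2 q3
    hez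

theorem MonoQ.fib {Φ : StQ} (m : H408.MonoQ Φ) : H408.MonoQ (FibQ Φ) :=
  fun ι _ _ p n ez F1 F2 F3 o K x s r U g u v Q1 Q2 Q3 X X' ht hs hr hez hX h f1 f2 =>
    m ι p n ez F1 F2 F3 o K x s r U g u v Q1 Q2 Q3 X X' ht hs hr hez hX (h f1 f2)

/-- two number leaves for data with small fibres -/
theorem PairQ.andF {Φ1 Φ2 : StQ} (H1 : H408.PairQ (FibQ Φ1)) (H2 : H408.PairQ (FibQ Φ2))
    (m1 : H408.MonoQ Φ1) (m2 : H408.MonoQ Φ2) :
    H408.PairQ (FibQ fun ι _ _ p n ez F1 F2 F3 o K x s r U g u v Q1 Q2 Q3 X =>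
      Φ1 ι p n ez F1 F2 F3 o K x s r U g u v Q1 Q2 Q3 X ∧
        Φ2 ι p n ez F1 F2 F3 o K x s r U g u v Q1 Q2 Q3 X) := by
  have h := H408.PairQ.and H1 H2 (MonoQ.fib m1) (MonoQ.fib m2)
  intro a ha ha1
  obtain ⟨es, hes, H⟩ := h a ha ha1
  refine ⟨es, hes, fun e0 he0 he0' => ?_⟩
  obtain ⟨k8s, hk8s, H⟩ := H e0 he0 he0'
  refine ⟨k8s, hk8s, fun k8 hk8 hk8' => ?_⟩
  obtain ⟨k3s, hk3s, H⟩ := H k8 hk8 hk8'
  refine ⟨k3s, hk3s, fun k3 hk3 hk3' δ hδ => ?_⟩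
  obtain ⟨c1, d0, hc1, hd0, H⟩ := H k3 hk3 hk3' δ hδ
  refine ⟨c1, d0, hc1, hd0, fun c hc hcc d hd hdd Kt e cP L hK he hcP hL => ?_⟩
  obtain ⟨C, hC, H⟩ := H c hc hcc d hd hdd Kt e cP L hK he hcP hL
  refine ⟨C, hC, ?_⟩
  intro t ht ht1 n ez F1 F2 F3 h1 h3 h2 o ho K hKn x ι _ _ s r U g u v hs hr hcls Q1 Q2 Q3 q1 q2 q3
    hez f1 f2
  have k := H t ht ht1 n ez F1 F2 F3 h1 h3 h2 o ho K hKn x ι s r U g u v hs hr hcls Q1 Q2 Q3
    q1 q2 q3 hez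
  exact ⟨k.1 f1 f2, k.2 f1 f2⟩

end

end Vale.Agent.P141.H401
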