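import Vale.Agent.P141.H677.Fam2

/-!
# P141, line (A): first the static cut of the families, then the three-way split

`NS` : sum over the tiles, the points `x0` and the alive nodes.  `A`, `b`, `C` agree with the data on
the alive nodes, `A = A' + A''`, `b = b' + b''`.  The parts with `A''` or `b''` are not split; only
`(A', b', C)` is split in increasing, gap and flow part.

* `cosA_fam` : the cost in families;
* `cosA_cut` : cut of `A` and `b`; `cosA_cut3` : two cuts of `b`.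
-/

namespace Vale.Agent.P141.H401

open Finset Matrix
open Vale.Agent.P141.PL (Pt loc prd iv hs ix mem_iv ix_ix cb mem_cb cx)
open Vale.Agent.P141.PL.H560 (cbs bx0)
open Vale.Agent.P141.PL.H317 (crn)
open Vale.Agent.P141.PL.H804 (bx3)
open Vale.Agent.P141.H579 (cosA)
open Vale.Agent.P141.H420 (Tr)
open Vale.Agent.P141.H352 (In p)
open Vale.Agent.P141.H677

noncomputable section

open scoped Classical

set_option linter.unusedSectionVars false

variable {ι : Type*} [Fintype ι] [DecidableEq ι]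

/-- sum over the tiles, the points `x0` and the alive nodes -/
def NS (o : ℤ) (Al : ℕ → Pt → Prop) (K : ℕ) (x : Pt) (f : ℤ → ℕ → Pt → ℝ) : ℝ :=
  ∑ t ∈ rt (PL.cx K x), ∑ x0 ∈ iv K t, ∑ k ∈ Icc 1 K, ∑ m ∈ sN Al o K (PL.cx K x) x0 k, f x0 k m

variable {o : ℤ} {Al : ℕ → Pt → Prop} {K : ℕ} {x : Pt}

theorem NS_add (f g : ℤ → ℕ → Pt → ℝ) :
    NS o Al K x (fun x0 k m => f x0 k m + g x0 k m) = NS o Al K x f + NS o Al K x g := by
  unfold NS
  simp only [← sum_add_distrib]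

theorem NS_mono {f g : ℤ → ℕ → Pt → ℝ}
    (h : ∀ x0 : ℤ, ∀ k ∈ Icc 1 K, ∀ m ∈ sN Al o K (PL.cx K x) x0 k, f x0 k m ≤ g x0 k m) :
    NS o Al K x f ≤ NS o Al K x g :=
  sum_le_sum fun _ _ => sum_le_sum fun x0 _ => sum_le_sum fun k hk => sum_le_sum fun m hm =>
    h x0 k hk m hm

theorem NS_congr {f g : ℤ → ℕ → Pt → ℝ}
    (h : ∀ x0 : ℤ, ∀ k ∈ Icc 1 K, ∀ m ∈ sN Al o K (PL.cx K x) x0 k, f x0 k m = g x0 k m) :
    NS o Al K x f = NS o Al K x g :=
  sum_congr rfl fun _ _ => sum_congr rfl fun x0 _ => sum_congr rfl fun k hk =>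
    sum_congr rfl fun m hm => h x0 k hk m hm

theorem NS_nonneg {f : ℤ → ℕ → Pt → ℝ} (h : ∀ x0 k m, 0 ≤ f x0 k m) : 0 ≤ NS o Al K x f :=
  sum_nonneg fun _ _ => sum_nonneg fun _ _ => sum_nonneg fun _ _ => sum_nonneg fun _ _ => h _ _ _

/-- `hs` and a sign do not enlarge the sum of absolute values -/
theorem NS_sign_le (sg : ℕ → Pt → ℝ) (hsg : ∀ k m, |sg k m| ≤ 1) (f : ℤ → ℕ → Pt → ℝ) :
    NS o Al K x (fun x0 k m => sg k (rv m) * (hs k x0 * f x0 k m)) ≤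
      NS o Al K x fun x0 k m => |f x0 k m| := by
  refine NS_mono fun x0 k _ m _ => (le_abs_self _).trans ?_
  rw [abs_mul, abs_mul, PL.abs_hs, one_mul]
  exact mul_le_of_le_one_left (abs_nonneg _) (hsg _ _)

variable {g : ℤ × ℤ → ℝ} {u v : ℤ → ℤ → ι → ℝ} {F1 F2 F3 : ℕ → Pt → ℝ}
  {A A' A'' : ℤ → ℕ → ℤ → ℤ → ℝ} {b b' b'' b₃ C : ℤ → ℕ → ℤ → ℤ → ι → ℝ}

/-- **The cost in families**, with the signs of the nodes. -/
theorem cosA_fam (ho : o = 1 ∨ o = -1) (h : AgrN o Al K x g u v F1 F2 F3 A b C) :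
    cosA Al o K x (fun y => g y.2 * (u y.1 y.2.1 ⬝ᵥ v y.1 y.2.2)) (fun k _ => F1 k)
        (fun k _ => F2 k) (fun k _ => F3 k) =
      NS o Al K x fun x0 k m => sgN o g u v F1 F2 F3 k (rv m) *
        (hs k x0 * nf3 (A x0 k) (b x0 k) (C x0 k) k m) := by
  have h1 : cosA Al o K x (fun y => g y.2 * (u y.1 y.2.1 ⬝ᵥ v y.1 y.2.2)) (fun k _ => F1 k)
      (fun k _ => F2 k) (fun k _ => F3 k) =
      nodesA Al K x (fun k m => ∑ x0 ∈ iv k (bx0 o m).1, sgN o g u v F1 F2 F3 k m * (hs k x0 *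
        nf3 (fA g F1 x0 k) (fb u F3 x0 k) (fC v F2 x0 k) k (rv m))) := by
    unfold H579.cosA nodesA
    refine sum_congr rfl fun k _ => ?_
    rw [mul_sum]
    refine sum_congr rfl fun m _ => ?_
    beta_reduce
    rw [← mul_sum, ← loc_nf3]
    unfold sgN
    rw [mul_left_comm, sign_mul_self]
  rw [h1, swap0 ho Al K x fun x0 k m => sgN o g u v F1 F2 F3 k m * (hs k x0 *
        nf3 (fA g F1 x0 k) (fb u F3 x0 k) (fC v F2 x0 k) k (rv m))]
  refine sum_congr rfl fun t _ => sum_congr rfl fun x0 _ => sum_congr rfl fun k hk =>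
    sum_congr rfl fun m hm => ?_
  rw [rv_rv, nf3_congr (h x0 k hk m hm)]

/-- the three-way split of the signed sum of families -/
theorem split_fam {l : ℝ} (hl : 0 < l) (sg : ℕ → Pt → ℝ) (hsg : ∀ k m, |sg k m| ≤ 1)
    (A : ℤ → ℕ → ℤ → ℤ → ℝ) (b C : ℤ → ℕ → ℤ → ℤ → ι → ℝ) :
    NS o Al K x (fun x0 k m => sg k (rv m) * (hs k x0 * nf3 (A x0 k) (b x0 k) (C x0 k) k m)) ≤
      NS o Al K x (fun x0 k m => |ndI l (KT l u) (A x0 k) (b x0 k) (C x0 k) k m|) +
      NS o Al K x (fun x0 k m => |ndZ l (KT l u) (A x0 k) (b x0 k) (C x0 k) k m|) +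
      |∑ t ∈ rt (PL.cx K x), ∑ x0 ∈ iv K t, ∑ j ∈ range K,
        In K (PL.cx K x) (p (j + 1) (cP o x0 (j + 1))) (fun y =>
          GA (A x0) (b x0) (C x0) (RA K l (KT l u) (cP o x0) (thA (cP o x0)
            (sN Al o K (PL.cx K x) x0) fun k m => sg k (rv m) * hs k x0)) j (j + 1) y -
          GA (A x0) (b x0) (C x0) (RA K l (KT l u) (cP o x0) (thA (cP o x0)
            (sN Al o K (PL.cx K x) x0) fun k m => sg k (rv m) * hs k x0)) (j + 1) (j + 1) y)| := by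
  have e1 : NS o Al K x (fun x0 k m => sg k (rv m) *
      (hs k x0 * nf3 (A x0 k) (b x0 k) (C x0 k) k m)) =
      NS o Al K x (fun x0 k m => sg k (rv m) * (hs k x0 *
        ndI l (KT l u) (A x0 k) (b x0 k) (C x0 k) k m)) +
      NS o Al K x (fun x0 k m => sg k (rv m) * (hs k x0 *
        ndZ l (KT l u) (A x0 k) (b x0 k) (C x0 k) k m)) +
      NS o Al K x (fun x0 k m => sg k (rv m) * (hs k x0 *
        ndF l (KT l u) (A x0 k) (b x0 k) (C x0 k) k m)) := by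
    rw [← NS_add, ← NS_add]
    refine NS_congr fun x0 k hk m _ => ?_
    rw [nf3_split (fun x1 => tr_T hl K u x1) (mem_Icc.1 hk).1 (A x0 k) (b x0 k) (C x0 k) m]
    ring
  have e2 : NS o Al K x (fun x0 k m => sg k (rv m) * (hs k x0 *
        ndF l (KT l u) (A x0 k) (b x0 k) (C x0 k) k m)) =
      ∑ t ∈ rt (PL.cx K x), ∑ x0 ∈ iv K t, ∑ j ∈ range K,
        In K (PL.cx K x) (p (j + 1) (cP o x0 (j + 1))) (fun y =>
          GA (A x0) (b x0) (C x0) (RA K l (KT l u) (cP o x0) (thA (cP o x0)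
            (sN Al o K (PL.cx K x) x0) fun k m => sg k (rv m) * hs k x0)) j (j + 1) y -
          GA (A x0) (b x0) (C x0) (RA K l (KT l u) (cP o x0) (thA (cP o x0)
            (sN Al o K (PL.cx K x) x0) fun k m => sg k (rv m) * hs k x0)) (j + 1) (j + 1) y) := by
    unfold NS
    refine sum_congr rfl fun t _ => sum_congr rfl fun x0 _ => ?_
    rw [← abel_fam l (KT l u) K (PL.cx K x) (cP o x0) (sN Al o K (PL.cx K x) x0)
      (fun k m => sg k (rv m) * hs k x0) (A x0) (b x0) (C x0) fun k _ => sN_sub ..]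
    refine sum_congr rfl fun k _ => sum_congr rfl fun m _ => ?_
    ring
  rw [e1, e2]
  exact add_le_add (add_le_add (NS_sign_le sg hsg _) (NS_sign_le sg hsg _)) (le_abs_self _)

/-- **Cut first, then split.** -/
theorem cosA_cut (ho : o = 1 ∨ o = -1) {l : ℝ} (hl : 0 < l)
    (h : AgrN o Al K x g u v F1 F2 F3 A b C)
    (hA : ∀ x0 k z y, A x0 k z y = A' x0 k z y + A'' x0 k z y)
    (hb : ∀ x0 k x y, b x0 k x y = b' x0 k x y + b'' x0 k x y) :
    ∃ sg : ℕ → Pt → ℝ, (∀ k m, |sg k m| ≤ 1) ∧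
    cosA Al o K x (fun y => g y.2 * (u y.1 y.2.1 ⬝ᵥ v y.1 y.2.2)) (fun k _ => F1 k)
        (fun k _ => F2 k) (fun k _ => F3 k) ≤
      NS o Al K x (fun x0 k m => |nf3 (A'' x0 k) (b x0 k) (C x0 k) k m|) +
      NS o Al K x (fun x0 k m => |nf3 (A' x0 k) (b'' x0 k) (C x0 k) k m|) +
      (NS o Al K x (fun x0 k m => |ndI l (KT l u) (A' x0 k) (b' x0 k) (C x0 k) k m|) +
      NS o Al K x (fun x0 k m => |ndZ l (KT l u) (A' x0 k) (b' x0 k) (C x0 k) k m|) +
      |∑ t ∈ rt (PL.cx K x), ∑ x0 ∈ iv K t, ∑ j ∈ range K,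
        In K (PL.cx K x) (p (j + 1) (cP o x0 (j + 1))) (fun y =>
          GA (A' x0) (b' x0) (C x0) (RA K l (KT l u) (cP o x0) (thA (cP o x0)
            (sN Al o K (PL.cx K x) x0) fun k m => sg k (rv m) * hs k x0)) j (j + 1) y -
          GA (A' x0) (b' x0) (C x0) (RA K l (KT l u) (cP o x0) (thA (cP o x0)
            (sN Al o K (PL.cx K x) x0) fun k m => sg k (rv m) * hs k x0))
              (j + 1) (j + 1) y)|) := by
  refine ⟨sgN o g u v F1 F2 F3, fun k m => abs_sgN_le .., ?_⟩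
  set sg : ℕ → Pt → ℝ := sgN o g u v F1 F2 F3 with hsg
  have hs1 : ∀ k m, |sg k m| ≤ 1 := fun k m => abs_sgN_le ..
  rw [cosA_fam ho h]
  have eA : ∀ x0 k, A x0 k = fun z y => A' x0 k z y + A'' x0 k z y := fun x0 k => by
    funext z y
    exact hA x0 k z y
  have eb : ∀ x0 k, b x0 k = fun x y => b' x0 k x y + b'' x0 k x y := fun x0 k => by
    funext z y
    exact hb x0 k z y
  have e1 : NS o Al K x (fun x0 k m => sg k (rv m) *
      (hs k x0 * nf3 (A x0 k) (b x0 k) (C x0 k) k m)) =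
      NS o Al K x (fun x0 k m => sg k (rv m) * (hs k x0 *
        nf3 (A'' x0 k) (b x0 k) (C x0 k) k m)) +
      NS o Al K x (fun x0 k m => sg k (rv m) * (hs k x0 *
        nf3 (A' x0 k) (b'' x0 k) (C x0 k) k m)) +
      NS o Al K x (fun x0 k m => sg k (rv m) * (hs k x0 *
        nf3 (A' x0 k) (b' x0 k) (C x0 k) k m)) := by
    rw [← NS_add, ← NS_add]
    refine NS_congr fun x0 k hk m _ => ?_
    have e2 : nf3 (A x0 k) (b x0 k) (C x0 k) k m =
        nf3 (A' x0 k) (b x0 k) (C x0 k) k m + nf3 (A'' x0 k) (b x0 k) (C x0 k) k m := by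
      conv_lhs => rw [eA x0 k]
      exact nf3_addA ..
    have e3 : nf3 (A' x0 k) (b x0 k) (C x0 k) k m =
        nf3 (A' x0 k) (b' x0 k) (C x0 k) k m + nf3 (A' x0 k) (b'' x0 k) (C x0 k) k m := by
      rw [eb x0 k]
      exact nf3_addB ..
    rw [e2, e3]
    ring
  rw [e1]
  exact add_le_add (add_le_add (NS_sign_le sg hs1 _) (NS_sign_le sg hs1 _))
    (split_fam hl sg hs1 A' b' C)

/-- **Two cuts of `b`** (`b = b' + b'' + b₃`). -/
theorem cosA_cut3 (ho : o = 1 ∨ o = -1) {l : ℝ} (hl : 0 < l)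
    (h : AgrN o Al K x g u v F1 F2 F3 A b C)
    (hA : ∀ x0 k z y, A x0 k z y = A' x0 k z y + A'' x0 k z y)
    (hb : ∀ x0 k x y, b x0 k x y = b' x0 k x y + (b'' x0 k x y + b₃ x0 k x y)) :
    ∃ sg : ℕ → Pt → ℝ, (∀ k m, |sg k m| ≤ 1) ∧
    cosA Al o K x (fun y => g y.2 * (u y.1 y.2.1 ⬝ᵥ v y.1 y.2.2)) (fun k _ => F1 k)
        (fun k _ => F2 k) (fun k _ => F3 k) ≤
      NS o Al K x (fun x0 k m => |nf3 (A'' x0 k) (b x0 k) (C x0 k) k m|) +
      (NS o Al K x (fun x0 k m => |nf3 (A' x0 k) (b'' x0 k) (C x0 k) k m|) +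
      NS o Al K x (fun x0 k m => |nf3 (A' x0 k) (b₃ x0 k) (C x0 k) k m|)) +
      (NS o Al K x (fun x0 k m => |ndI l (KT l u) (A' x0 k) (b' x0 k) (C x0 k) k m|) +
      NS o Al K x (fun x0 k m => |ndZ l (KT l u) (A' x0 k) (b' x0 k) (C x0 k) k m|) +
      |∑ t ∈ rt (PL.cx K x), ∑ x0 ∈ iv K t, ∑ j ∈ range K,
        In K (PL.cx K x) (p (j + 1) (cP o x0 (j + 1))) (fun y =>
          GA (A' x0) (b' x0) (C x0) (RA K l (KT l u) (cP o x0) (thA (cP o x0)
            (sN Al o K (PL.cx K x) x0) fun k m => sg k (rv m) * hs k x0)) j (j + 1) y -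
          GA (A' x0) (b' x0) (C x0) (RA K l (KT l u) (cP o x0) (thA (cP o x0)
            (sN Al o K (PL.cx K x) x0) fun k m => sg k (rv m) * hs k x0))
              (j + 1) (j + 1) y)|) := by
  obtain ⟨sg, h1, h2⟩ := cosA_cut (b'' := fun x0 k x y => b'' x0 k x y + b₃ x0 k x y) ho hl h hA hb
  refine ⟨sg, h1, h2.trans (add_le_add (add_le_add le_rfl ?_) le_rfl)⟩
  rw [← NS_add]
  refine NS_mono fun x0 k _ m _ => ?_
  have e : nf3 (A' x0 k) (fun x y => b'' x0 k x y + b₃ x0 k x y) (C x0 k) k m =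
      nf3 (A' x0 k) (b'' x0 k) (C x0 k) k m + nf3 (A' x0 k) (b₃ x0 k) (C x0 k) k m := nf3_addB ..
  rw [e]
  exact abs_add_le _ _

end

end Vale.Agent.P141.H401
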