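import Vale.Agent.P141.H401.Fin9
import Vale.Agent.P141.H972.AsmPM
import Vale.Agent.P141.H277.NumQG
import Vale.Agent.P141.H677.SlotFin
import Vale.Agent.P141.H224.EnRaw
import Vale.Agent.P141.H124.AfRaw
import Vale.Agent.P141.H454.PhiZ

/-!
# P141, line (A), top: the price of `fM` from two pair statements

* `slotNum` : the numbers of the slot, no hypothesis;
* `priceB_of_XC` : the price from `PhiX`, `PhiC`;
* `finalAll_of_BXC` : every `r < 2` from `LBCg`, `PhiX`, `PhiC`.
-/

namespace Vale.Agent.P141.H401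

open Vale.Agent.P141.H677
open Vale.Agent.P141.H677.Sk
open Vale.Agent.P141.H186.PS (PartS)
open Vale.Agent.P141.H277.Phi (PhiZ PhiX PhiC)
open Vale.Agent.P141.H408 (LBCg)

noncomputable section

/-- **The numbers of the slot.** -/
theorem slotNum : SlotNum H636.FDU :=
  slotNum_FDU H224.fld_en H795.FQ.fld_q H690.Q2F.fld_q2 H124.fld_af (H627.fld_qL.toR mono_FQL)
    H690.Q2F.fld_q2L H124.fld_afL

theorem bunN_FDU : H972.BunN H636.FDU := by
  intro ι _ _ p n ez F1 F2 F3 o K x s r U g u v A b C h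
  obtain ⟨h1, h2⟩ := H972.bunN_FD ι p n ez F1 F2 F3 o K x s r U g u v A b C h.2.2
  exact ⟨h1, fun z hz hez => ⟨h.1, h.2.1, h2 z hz hez⟩⟩

/-- **The price of `fM` from the two open pair statements.** -/
theorem priceB_of_XC (hX : PartS H636.FDU PhiX) (hC : PartS H636.FDU PhiC) :
    H939.PriceB H636.FDU fun _ι _ _ K M R A b C h j e => FM1 K M R A b C h j e :=
  H972.priceB_of_num bunN_FDU (H277.Phi.numQ_PCA H454.PhiZ.phiZ_FDU slotNum)
    (H277.Phi.numQ_PBC hX slotNum) (H277.Phi.numQ_PZB hC slotNum)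

/-- **Every `r < 2` from the three open statements.** -/
theorem finalAll_of_BXC (h3 : LBCg) (hX : PartS H636.FDU PhiX) (hC : PartS H636.FDU PhiC) :
    H397.FinalAll :=
  finalAll_of_LBCg_PriceB h3 (priceB_of_XC hX hC)

end

end Vale.Agent.P141.H401
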