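import Vale.Agent.P141.H401.Fin10
import Vale.Agent.P141.H973.PhiC
import Vale.Agent.P141.H675.PhiX
import Vale.Agent.P141.H108.PhA
import Vale.Agent.P141.H565.PhBo
import Vale.Agent.P141.H377.PhCap
import Vale.Agent.P141.H565.PhV1
import Vale.Agent.P141.H796.PhV2

/-!
# P141, line (A), top: the price of `fM`, no hypothesis

* `phiX`, `priceB`, `cstUV_fM0` : the pair of the hub `x1`, the price, the part `fM`;
* `finalAll_of_LBCg` : every `r < 2` from the one open statement `LBCg`;
* `finalAll_of_numBC` : from its numbers.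
-/

namespace Vale.Agent.P141.H401

open Vale.Agent.P141.H677
open Vale.Agent.P141.H677.Sk
open Vale.Agent.P141.H186.PS (PartS)
open Vale.Agent.P141.H277.Phi (PhiZ PhiX PhiC)
open Vale.Agent.P141.H408 (LBCg)

noncomputable section

/-- the pair of the hub `x1` -/
theorem phiX : PartS H636.FDU PhiX :=
  H675.PX.phiX_of H108.phA H565.phBo H377.phCap H565.phV1 H796.phV2

/-- **The price of `fM`.** -/
theorem priceB :
    H939.PriceB H636.FDU fun _ι _ _ K M R A b C h j e => FM1 K M R A b C h j e :=
  priceB_of_XC phiX H973.phiC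

/-- **The part `fM`.** -/
theorem cstUV_fM0 : CStUV DuS DvS fM := cstUV_fM priceB

/-- **Every `r < 2` from the one open statement.** -/
theorem finalAll_of_LBCg (h3 : LBCg) : H397.FinalAll := finalAll_of_LBCg_PriceB h3 priceB

/-- **The same with the numbers of the pair `(B, C)`.** -/
theorem finalAll_of_numBC {K₀ c₁ : ℝ} (hK₀ : 0 ≤ K₀) (hc₁ : 0 ≤ c₁) (H : H886.NumBC K₀ c₁) :
    H397.FinalAll :=
  finalAll_of_LBCg (H886.lbc_end hK₀ hc₁ H)

end

end Vale.Agent.P141.H401
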