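import Vale.Agent.P141.H401.CutUV
import Vale.Agent.P141.H305.CutU
import Vale.Agent.P141.H508.HSt00
import Vale.Agent.P141.H508.HSt0

/-!
# P141, line (A), top: the three forms of the cut of `u` agree

The statements of `H305.CutU`, `H401.CutUV` and `H508.HSt00` are the same by definition.

* `mkUV_iff`, `cstUV_iff`, `hst00_iff` ; `dus_eq` ;
* `MkFU.toCutU` : makers with both fibres in the form of `H305.CutU` ;
* `ce1q_final` : the class statement from three bundles, unsplit parts discharged.
-/

namespace Vale.Agent.P141.H401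

open Vale.Agent.P141.H677
open Vale.Agent.P141.H305 (CE1q)

noncomputable section

theorem hst00_iff (Du : Sel) : H305.CutU.HSt00 Du ↔ HSt00 Du := Iff.rfl

theorem mkUV_iff (Du Dv : Sel) (D : Bun) : H305.CutU.MkStUV Du Dv D ↔ MkStUV Du Dv D := Iff.rfl

theorem cstUV_iff (Du Dv : Sel) (T : FunF) : H305.CutU.CStUV Du Dv T ↔ CStUV Du Dv T := Iff.rfl

theorem dus_eq : @H508.DuS = @DuS := rfl

/-- the price of the dense fibres of `u` -/
theorem hst00S : HSt00 DuS := H508.hst00S

/-- makers with both fibres, form of `H305.CutU` -/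
theorem MkFU.toCutU {D : Bun} (H : MkFU D) : H305.CutU.MkStUV DuS DvS D := H.toUV

end

end Vale.Agent.P141.H401
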