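import Vale.Agent.P141.H401.CStF
import Vale.Agent.P141.H401.UVeq
import Vale.Agent.P141.H879.Full
import Vale.Agent.P141.H56.PnFd
import Vale.Agent.P141.H460.CStB
import Vale.Agent.P141.H58.LeafS
import Vale.Agent.P141.H816.MkFD

/-!
# P141, line (A), top: the final statement from the three open parts

* `final_of_three` : the final statement from `CStF NT`, `CStF NZ`, `CStF fM`; the unsplit parts,
  the maker of the flow bundle, the near term, the births and the shift error are discharged.
-/

namespace Vale.Agent.P141.H401

open Vale.Agent.P141.H677
open Vale.Agent.P141.H677.Sk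

noncomputable section

/-- near term, births and shift error -/
theorem cstF_fN : CStF fN := CStF.of_mk (MkF.toFU H816.mk_FD) H56.Pn.leafN

theorem cstF_fB : CStF fB := CSt.toF H460.cst_fB

theorem cstF_fS : CStF fS := CStF.of_mk (MkF.toFU H816.mk_FD) H58.leafS

/-- **The final statement from the three open parts.** -/
theorem final_of_three (HI : CStF NI) (HZ : CStF NZ) (HM : CStF fM) : H490.FinalStmt :=
  H879.open_listU DuS DuS_CD hst00S HI.toUV HZ.toUV cstF_fN.toUV cstF_fB.toUV cstF_fS.toUV HM.toUV

end

end Vale.Agent.P141.H401
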