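import Vale.Agent.P141.H401.Fin3
import Vale.Agent.P141.H331.SkelTZU
import Vale.Agent.P141.H579.MkCap
import Vale.Agent.P141.H64.ZFam
import Vale.Agent.P141.H576.ZGap
import Vale.Agent.P141.H622.ZMass
import Vale.Agent.P141.H80.ZLight
import Vale.Agent.P141.H672.ZFlow
import Vale.Agent.P141.H775.TileZ
import Vale.Agent.P141.H636.FibF

/-!
# P141, line (A), top: the final statement from the open leaves

* `cstUV_NZ` : the gap part from its one open leaf `H331.LeafCr`;
* `final_of_open` : the final statement from `CStF NT`, `LeafCr` and `PriceB FDU FM1`.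
-/

namespace Vale.Agent.P141.H401

open Vale.Agent.P141.H677
open Vale.Agent.P141.H677.Sk

noncomputable section

/-- **The gap part from the crude pair.** -/
theorem cstUV_NZ (H : H331.LeafCr) : CStUV DuS DvS NZ :=
  H331.cst_NZU H579.mkT_ZCap H64.mkT_ZFam H576.mkT_gap H622.mkT_ZMass H80.mkT_ZLight
    H672.mkT_ZFlow H H775.tileZ

/-- **The final statement from the open leaves.** -/
theorem final_of_open (HT : CStF H652.NT) (HC : H331.LeafCr)
    (HM : H939.PriceB H636.FDU fun _ι _ _ K M R A b C h j e => FM1 K M R A b C h j e) :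
    H490.FinalStmt :=
  H879.open_listU DuS DuS_CD hst00S (cstF_NI HT).toUV (cstUV_NZ HC) cstF_fN.toUV cstF_fB.toUV
    cstF_fS.toUV (H636.cstF_fM HM).toUV

end

end Vale.Agent.P141.H401
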