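import Vale.Agent.P141.H401.Fin4
import Vale.Agent.P141.H397.FinAll

/-!
# P141, line (A), top: every `r < 2`

* `ce1q_of_open` : the class statement from the three open leaves;
* `gen2_of_open`, `finalAll_of_open` : the final statement at every `r < 2`.
-/

namespace Vale.Agent.P141.H401

open Vale.Agent.P141.H677
open Vale.Agent.P141.H677.Sk

noncomputable section

/-- **The class statement from the open leaves.** -/
theorem ce1q_of_open (HT : CStF H652.NT) (HC : H331.LeafCr)
    (HM : H939.PriceB H636.FDU fun _ι _ _ K M R A b C h j e => FM1 K M R A b C h j e) :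
    H305.CE1q :=
  ce1q_of_CStUV hst00S H508.hst0S H74.hst1 H74.hst2 H64.hSt3 (cstF_NI HT).toUV (cstUV_NZ HC)
    (H879.cstUV_flow DuS_CD DvS_CD cstF_fN.toUV cstF_fB.toUV cstF_fS.toUV (H636.cstF_fM HM).toUV)

/-- the costs of the generations -/
theorem gen2_of_open (HT : CStF H652.NT) (HC : H331.LeafCr)
    (HM : H939.PriceB H636.FDU fun _ι _ _ K M R A b C h j e => FM1 K M R A b C h j e) :
    H927.GenOut2 :=
  H927.genOut2_of_cen (H879.cenStM_of_ce1q (ce1q_of_open HT HC HM)) H879.cenStL2

/-- **The final statement at every `r < 2` from the open leaves.** -/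
theorem finalAll_of_open (HT : CStF H652.NT) (HC : H331.LeafCr)
    (HM : H939.PriceB H636.FDU fun _ι _ _ K M R A b C h j e => FM1 K M R A b C h j e) :
    H397.FinalAll :=
  H397.finalAll_of_gen2 (gen2_of_open HT HC HM)

end

end Vale.Agent.P141.H401
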