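import Vale.Agent.P141.H401.Fin5
import Vale.Agent.P141.H822.ZCr
import Vale.Agent.P141.H408.NumTI
import Vale.Agent.P141.H501.StageR

/-!
# P141, line (A), top: the final statement from the leaves of the increasing part and the price

* `cstUV_NZ0` : the gap part, no hypothesis;
* `ce1q_of_NI_fM` : the class statement from the increasing part and the flow part `fM`;
* `cstUV_fM` : the part `fM` from its price;
* `finalAll_of_leaves` : every `r < 2` from the six leaves of the increasing part and the price of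
  `fM`.
-/

namespace Vale.Agent.P141.H401

open Vale.Agent.P141.H677
open Vale.Agent.P141.H677.Sk
open Vale.Agent.P141.H408 (LCapG LABg LCAu LBCg LCA1u LBC1g)

noncomputable section

/-- **The gap part.** -/
theorem cstUV_NZ0 : CStUV DuS DvS NZ := cstUV_NZ H822.ZCr.leafCr

/-- **The class statement from the increasing part and the part `fM`.** -/
theorem ce1q_of_NI_fM (HI : CStUV DuS DvS NI) (HM : CStUV DuS DvS fM) : H305.CE1q :=
  ce1q_of_CStUV hst00S H508.hst0S H74.hst1 H74.hst2 H64.hSt3 HI cstUV_NZ0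
    (H879.cstUV_flow DuS_CD DvS_CD cstF_fN.toUV cstF_fB.toUV cstF_fS.toUV HM)

/-- **Every `r < 2` from the increasing part and the part `fM`.** -/
theorem finalAll_of_NI_fM (HI : CStUV DuS DvS NI) (HM : CStUV DuS DvS fM) : H397.FinalAll :=
  H397.finalAll_of_gen2
    (H927.genOut2_of_cen (H879.cenStM_of_ce1q (ce1q_of_NI_fM HI HM)) H879.cenStL2)

/-- **The part `fM` from its price.** -/
theorem cstUV_fM
    (HM : H939.PriceB H636.FDU fun _ι _ _ K M R A b C h j e => FM1 K M R A b C h j e) :
    CStUV DuS DvS fM :=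
  (H636.cstF_fM HM).toUV

/-- **The increasing part from its leaves.** -/
theorem cstUV_NI0 (h0 : LCapG) (h1 : LABg) (h2 : LCAu) (h3 : LBCg) (h4 : LCA1u) (h5 : LBC1g) :
    CStUV DuS DvS NI :=
  H408.cstUV_NI H501.StageM.stageY1 h0 h1 h2 h3 h4 h5

/-- **Every `r < 2` from the open leaves.** -/
theorem finalAll_of_leaves (h0 : LCapG) (h1 : LABg) (h2 : LCAu) (h3 : LBCg) (h4 : LCA1u)
    (h5 : LBC1g)
    (HM : H939.PriceB H636.FDU fun _ι _ _ K M R A b C h j e => FM1 K M R A b C h j e) :
    H397.FinalAll :=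
  finalAll_of_NI_fM (cstUV_NI0 h0 h1 h2 h3 h4 h5) (cstUV_fM HM)

end

end Vale.Agent.P141.H401
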