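import Vale.Agent.P141.H401.Fin6
import Vale.Agent.P141.H59.LCapG
import Vale.Agent.P141.H652.LabH
import Vale.Agent.P141.H831.LcaF

/-!
# P141, line (A), top: the leaves of the increasing part which are closed

* `cstUV_NI3` : the increasing part from the three pairs `LCAu`, `LBCg`, `LBC1g`;
* `finalAll_of_four` : every `r < 2` from these and the price of `fM`.
-/

namespace Vale.Agent.P141.H401

open Vale.Agent.P141.H677
open Vale.Agent.P141.H677.Sk
open Vale.Agent.P141.H408 (LCAu LBCg LBC1g)

noncomputable section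

/-- **The increasing part from the three open pairs.** -/
theorem cstUV_NI3 (h2 : LCAu) (h3 : LBCg) (h5 : LBC1g) : CStUV DuS DvS NI :=
  cstUV_NI0 H59.lCapG H652.lABu h2 h3 (H408.LCA1.toU H831.lCA1) h5

/-- **Every `r < 2` from the open leaves.** -/
theorem finalAll_of_four (h2 : LCAu) (h3 : LBCg) (h5 : LBC1g)
    (HM : H939.PriceB H636.FDU fun _ι _ _ K M R A b C h j e => FM1 K M R A b C h j e) :
    H397.FinalAll :=
  finalAll_of_NI_fM (cstUV_NI3 h2 h3 h5) (cstUV_fM HM)

end

end Vale.Agent.P141.H401
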