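import Vale.Agent.P141.H401.Fin7
import Vale.Agent.P141.H808.Lca
import Vale.Agent.P141.H886.LbcEnd
import Vale.Agent.P141.H277.NumQG

/-!
# P141, line (A), top: the open list after `LCA`

* `cstUV_NI2` : the increasing part from `LBCg`, `LBC1g`; `cstUV_NI_num` : from the numbers of the
  pair `(B, C)` and `LBC1g`;
* `finalAll_of_three` : every `r < 2` from `LBCg`, `LBC1g` and the price of `fM`.
-/

namespace Vale.Agent.P141.H401

open Vale.Agent.P141.H677
open Vale.Agent.P141.H677.Sk
open Vale.Agent.P141.H408 (LCAu LBCg LBC1g)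

noncomputable section

/-- **The increasing part from the two open pairs.** -/
theorem cstUV_NI2 (h3 : LBCg) (h5 : LBC1g) : CStUV DuS DvS NI :=
  cstUV_NI3 H808.lCAu h3 h5

/-- **The increasing part from its open numbers.** -/
theorem cstUV_NI_num {K₀ c₁ : ℝ} (hK₀ : 0 ≤ K₀) (hc₁ : 0 ≤ c₁) (H : H886.NumBC K₀ c₁)
    (h5 : LBC1g) : CStUV DuS DvS NI :=
  cstUV_NI2 (H886.lbc_end hK₀ hc₁ H) h5

/-- **Every `r < 2` from the open statements.** -/
theorem finalAll_of_three (h3 : LBCg) (h5 : LBC1g)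
    (HM : H939.PriceB H636.FDU fun _ι _ _ K M R A b C h j e => FM1 K M R A b C h j e) :
    H397.FinalAll :=
  finalAll_of_NI_fM (cstUV_NI2 h3 h5) (cstUV_fM HM)

end

end Vale.Agent.P141.H401
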