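import Vale.Agent.P141.H401.Fin8
import Vale.Agent.P141.H831.LbcF

/-!
# P141, line (A), top: the open list after `LBC1g`

* `cstUV_NI1` : the increasing part from `LBCg`;
* `finalAll_of_LBCg_PriceB` : every `r < 2` from `LBCg` and the price of `fM`;
* `finalAll_of_num` : from the numbers `NumBC` and the price of `fM`.
-/

namespace Vale.Agent.P141.H401

open Vale.Agent.P141.H677
open Vale.Agent.P141.H677.Sk
open Vale.Agent.P141.H408 (LBCg)

noncomputable section

/-- **The increasing part from the open pair.** -/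
theorem cstUV_NI1 (h3 : LBCg) : CStUV DuS DvS NI := cstUV_NI2 h3 H831.Lbc.lBC1g

/-- **Every `r < 2` from the two open statements.** -/
theorem finalAll_of_LBCg_PriceB (h3 : LBCg)
    (HM : H939.PriceB H636.FDU fun _ι _ _ K M R A b C h j e => FM1 K M R A b C h j e) :
    H397.FinalAll :=
  finalAll_of_NI_fM (cstUV_NI1 h3) (cstUV_fM HM)

/-- **The same with the numbers of the pair `(B, C)`.** -/
theorem finalAll_of_num {K₀ c₁ : ℝ} (hK₀ : 0 ≤ K₀) (hc₁ : 0 ≤ c₁) (H : H886.NumBC K₀ c₁)
    (HM : H939.PriceB H636.FDU fun _ι _ _ K M R A b C h j e => FM1 K M R A b C h j e) :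
    H397.FinalAll :=
  finalAll_of_LBCg_PriceB (H886.lbc_end hK₀ hc₁ H) HM

end

end Vale.Agent.P141.H401
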