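import Vale.Agent.P141.H401.Fin11
import Vale.Agent.P141.H886.NumBC

/-!
# P141, line (A), top: the final statement, no hypothesis
-/

namespace Vale.Agent.P141.H401

/-- **The trilinear Hilbert transform is bounded at every Hoelder tuple with `p_i > 2`, `r < 2`.** -/
theorem finalAll : H397.FinalAll := finalAll_of_LBCg H886.lBCg

end Vale.Agent.P141.H401
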